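import Mathlib

/-! # Archimedean synthesis, part 1: the grid partition of unity, Cauchy-Schwarz, and (S1)

`s1`: if `A`, `B` are positive linear maps on `C(X)`, `C(Z)` (with the Kadison bound) such that
`A f * B g = 0` for non-incident supports, the points of `X` near one element of `Z` are covered by
`O(1/ε)` balls of radius `O(ε)`, and `∑ u_r(x) v_r(z)` is a Lipschitz sum with
`|∑ u_r(x) v_r(z)| ≤ L D(x,z)`, then `∑ A(f u_r) B(g v_r) = 0`. -/

namespace Vale.Agent.P092.H283.Syn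

open Finset

/-- the hat function -/
noncomputable def hat (t : ℝ) : ℝ := max 0 (1 - |t|)

lemma hat_nonneg (t : ℝ) : 0 ≤ hat t := le_max_left _ _

lemma hat_le_one (t : ℝ) : hat t ≤ 1 := by
  unfold hat
  have := abs_nonneg t
  exact max_le (by norm_num) (by linarith)

lemma hat_zero_of {t : ℝ} (h : 1 ≤ |t|) : hat t = 0 := by
  unfold hat
  exact max_eq_left (by linarith)

lemma continuous_hat : Continuous hat := by
  unfold hat
  fun_prop

lemma sum_hat (N : ℕ) {t : ℝ} (ht : |t| ≤ N) :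
    ∑ k ∈ Finset.Icc (-((N : ℤ) + 1)) ((N : ℤ) + 1), hat (t - k) = 1 := by
  obtain ⟨h1, h2⟩ := abs_le.mp ht
  set m : ℤ := ⌊t⌋ with hm
  have hm1 : (m : ℝ) ≤ t := Int.floor_le t
  have hm2 : t < m + 1 := Int.lt_floor_add_one t
  have hmN : m ≤ N := by
    have : (m : ℝ) ≤ (N : ℤ) := by push_cast; linarith
    exact_mod_cast this
  have hmN' : -(N : ℤ) ≤ m := by
    rw [hm]
    apply Int.le_floor.mpr
    push_cast
    linarith
  have hsub : ({m, m + 1} : Finset ℤ) ⊆ Finset.Icc (-((N : ℤ) + 1)) ((N : ℤ) + 1) := by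
    intro k hk
    simp only [Finset.mem_insert, Finset.mem_singleton] at hk
    rw [Finset.mem_Icc]
    rcases hk with rfl | rfl <;> constructor <;> omega
  rw [← Finset.sum_subset hsub]
  · have hne : m ≠ m + 1 := by omega
    rw [Finset.sum_pair hne]
    unfold hat
    push_cast
    have e1 : |t - m| = t - m := abs_of_nonneg (by linarith)
    have e2 : |t - ((m : ℝ) + 1)| = (m : ℝ) + 1 - t := by
      rw [abs_of_nonpos (by linarith)]; ring
    rw [e1, e2, max_eq_right (by linarith), max_eq_right (by linarith)]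
    ring
  · intro k _ hk
    simp only [Finset.mem_insert, Finset.mem_singleton, not_or] at hk
    apply hat_zero_of
    rcases lt_or_gt_of_ne hk.1 with h | h
    · have : (k : ℝ) + 1 ≤ m := by exact_mod_cast h
      rw [abs_of_nonneg (by linarith)]; linarith
    · have h' : m + 1 < k := lt_of_le_of_ne (by omega) (Ne.symm hk.2)
      have : (m : ℝ) + 1 + 1 ≤ k := by exact_mod_cast h'
      rw [abs_of_nonpos (by linarith)]; linarith

section grid

variable {X κ : Type*} [TopologicalSpace X] [Fintype κ]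

/-- one cell function of the grid of mesh `1/N` in the coordinates `p` -/
noncomputable def cell (N : ℕ) (p : κ → C(X, ℝ)) (α : κ → ℤ) : C(X, ℝ) where
  toFun x := ∏ i, hat (N * p i x - α i)
  continuous_toFun := by
    apply continuous_finsetProd
    intro i _
    exact continuous_hat.comp (by fun_prop)

/-- the cells used -/
noncomputable def cells [DecidableEq κ] (N : ℕ) : Finset (κ → ℤ) :=
  Fintype.piFinset (fun _ => Finset.Icc (-((N : ℤ) + 1)) ((N : ℤ) + 1))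

lemma cell_nonneg (N : ℕ) (p : κ → C(X, ℝ)) (α : κ → ℤ) (x : X) : 0 ≤ cell N p α x :=
  Finset.prod_nonneg fun _ _ => hat_nonneg _

lemma cell_le_one (N : ℕ) (p : κ → C(X, ℝ)) (α : κ → ℤ) (x : X) : cell N p α x ≤ 1 :=
  Finset.prod_le_one (fun _ _ => hat_nonneg _) (fun _ _ => hat_le_one _)

lemma cell_near {N : ℕ} {p : κ → C(X, ℝ)} {α : κ → ℤ} {x : X} (h : cell N p α x ≠ 0) (i : κ) :
    |N * p i x - α i| ≤ 1 := by
  by_contra hc
  push Not at hc
  apply h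
  exact Finset.prod_eq_zero (Finset.mem_univ i) (hat_zero_of hc.le)

lemma sum_cell [DecidableEq κ] (N : ℕ) (p : κ → C(X, ℝ)) (hp : ∀ i x, |p i x| ≤ 1) (x : X) :
    ∑ α ∈ cells N, cell N p α x = 1 := by
  have h := Finset.prod_univ_sum (fun _ : κ => Finset.Icc (-((N : ℤ) + 1)) ((N : ℤ) + 1))
    (fun i (k : ℤ) => hat (N * p i x - k))
  have h2 : ∏ i : κ, ∑ k ∈ Finset.Icc (-((N : ℤ) + 1)) ((N : ℤ) + 1), hat (N * p i x - k) = 1 := by
    apply Finset.prod_eq_one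
    intro i _
    apply sum_hat
    rw [abs_mul, Nat.abs_cast]
    calc (N : ℝ) * |p i x| ≤ N * 1 := by
          apply mul_le_mul_of_nonneg_left (hp i x) (Nat.cast_nonneg N)
      _ = N := mul_one _
  rw [h2] at h
  exact h.symm

end grid

section cs

variable {X Z K : Type*} [TopologicalSpace X] [TopologicalSpace Z]
  [NormedAddCommGroup K] [InnerProductSpace ℂ K] [CompleteSpace K]

/-- the Kadison / Bessel bound for all finite families -/
def Kad (A : C(X, ℂ) →ₗ[ℂ] (K →L[ℂ] K)) (C : ℝ) : Prop :=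
  ∀ (ι : Type) (s : Finset ι) (h : ι → C(X, ℂ)) (M : ℝ), (∀ x, ∑ i ∈ s, ‖h i x‖ ^ 2 ≤ M) →
    ∀ ξ, ∑ i ∈ s, ‖A (h i) ξ‖ ^ 2 ≤ C * M * ‖ξ‖ ^ 2

theorem cs {A : C(X, ℂ) →ₗ[ℂ] (K →L[ℂ] K)} {B : C(Z, ℂ) →ₗ[ℂ] (K →L[ℂ] K)} {CA CB : ℝ}
    (hA0 : 0 ≤ CA) (hB0 : 0 ≤ CB)
    (hAs : ∀ f, A (star f) = star (A f)) (kA : Kad A CA) (kB : Kad B CB)
    {ι : Type} (s : Finset ι) (a : ι → C(X, ℂ)) (b : ι → C(Z, ℂ)) {Ma Mb : ℝ}
    (hMa : 0 ≤ Ma) (hMb : 0 ≤ Mb)
    (ha : ∀ x, ∑ i ∈ s, ‖a i x‖ ^ 2 ≤ Ma) (hb : ∀ x, ∑ i ∈ s, ‖b i x‖ ^ 2 ≤ Mb) :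
    ‖∑ i ∈ s, A (a i) * B (b i)‖ ≤ Real.sqrt (CA * Ma * (CB * Mb)) := by
  apply ContinuousLinearMap.opNorm_le_bound _ (Real.sqrt_nonneg _)
  intro ξ
  set T := ∑ i ∈ s, A (a i) * B (b i) with hT
  set η := T ξ with hη
  have hsum : η = ∑ i ∈ s, A (a i) (B (b i) ξ) := by
    rw [hη, hT, _root_.sum_apply]
    rfl
  have h1 : (inner ℂ η η : ℂ) = ∑ i ∈ s, inner ℂ (A (star (a i)) η) (B (b i) ξ) := by
    calc (inner ℂ η η : ℂ) = inner ℂ η (∑ i ∈ s, A (a i) (B (b i) ξ)) := by rw [← hsum]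
      _ = ∑ i ∈ s, inner ℂ η (A (a i) (B (b i) ξ)) := inner_sum _ _ _
      _ = ∑ i ∈ s, inner ℂ (A (star (a i)) η) (B (b i) ξ) := by
        apply Finset.sum_congr rfl
        intro i _
        rw [hAs, ContinuousLinearMap.star_eq_adjoint, ContinuousLinearMap.adjoint_inner_left]
  have h2 : ‖η‖ ^ 2 ≤ ∑ i ∈ s, ‖A (star (a i)) η‖ * ‖B (b i) ξ‖ := by
    have : ‖η‖ ^ 2 = ‖(inner ℂ η η : ℂ)‖ := by
      rw [inner_self_eq_norm_sq_to_K]
      simp
    rw [this, h1]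
    refine (norm_sum_le _ _).trans ?_
    apply Finset.sum_le_sum
    intro i _
    exact norm_inner_le_norm _ _
  have h3 : (∑ i ∈ s, ‖A (star (a i)) η‖ * ‖B (b i) ξ‖) ^ 2 ≤
      (CA * Ma * ‖η‖ ^ 2) * (CB * Mb * ‖ξ‖ ^ 2) := by
    refine (Finset.sum_mul_sq_le_sq_mul_sq s _ _).trans ?_
    apply mul_le_mul
    · apply kA ι s (fun i => star (a i)) Ma
      intro x
      simpa using ha x
    · exact kB ι s b Mb hb ξ
    · exact Finset.sum_nonneg fun _ _ => sq_nonneg _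
    · exact mul_nonneg (mul_nonneg hA0 hMa) (sq_nonneg _)
  have h4 : (‖η‖ ^ 2) ^ 2 ≤ (CA * Ma * ‖η‖ ^ 2) * (CB * Mb * ‖ξ‖ ^ 2) := by
    refine le_trans ?_ h3
    exact pow_le_pow_left₀ (sq_nonneg _) h2 2
  have h5 : ‖η‖ ^ 2 ≤ (CA * Ma * (CB * Mb)) * ‖ξ‖ ^ 2 := by
    rcases eq_or_ne (‖η‖) 0 with h0 | h0
    · rw [h0]
      have : 0 ≤ CA * Ma * (CB * Mb) * ‖ξ‖ ^ 2 := by positivity
      simpa using this
    · have hpos : 0 < ‖η‖ ^ 2 := by positivity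
      have : ‖η‖ ^ 2 * ‖η‖ ^ 2 ≤ ((CA * Ma * (CB * Mb)) * ‖ξ‖ ^ 2) * ‖η‖ ^ 2 := by
        nlinarith [h4]
      exact le_of_mul_le_mul_right this hpos
  have h6 : ‖η‖ ≤ Real.sqrt ((CA * Ma * (CB * Mb)) * ‖ξ‖ ^ 2) := Real.le_sqrt_of_sq_le h5
  rwa [Real.sqrt_mul (by positivity), Real.sqrt_sq (norm_nonneg _)] at h6

end cs

end Vale.Agent.P092.H283.Syn
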