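import Vale.Agent.P092.H283.Syn2

/-! # Track C, cells, part 1: well-definedness on functions and the abstract cell step -/

set_option linter.unusedSectionVars false

namespace Vale.Agent.P092.H283.Car

open Finset Vale.Agent.P092.H283.Syn

section wd

variable {X Z X' M : Type*} [TopologicalSpace X] [TopologicalSpace Z] [TopologicalSpace X']
  [AddCommGroup M] [Module ℂ M]

/-- expansion of a finite family in a linearly independent one -/
theorem exp_basis {V : Type*} [AddCommGroup V] [Module ℂ V] {ι : Type*} [Finite ι] (u : ι → V) :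
    ∃ (d : ℕ) (e : Fin d → V) (c : ι → Fin d → ℂ), LinearIndependent ℂ e ∧
      ∀ i, u i = ∑ j, c i j • e j := by
  classical
  set U := Submodule.span ℂ (Set.range u) with hU
  have : FiniteDimensional ℂ U := FiniteDimensional.span_of_finite ℂ (Set.finite_range u)
  let b := Module.finBasis ℂ U
  refine ⟨Module.finrank ℂ U, fun j => (b j : V),
    fun i j => b.repr ⟨u i, Submodule.subset_span ⟨i, rfl⟩⟩ j, ?_, ?_⟩
  · have := b.linearIndependent.map' U.subtype (Submodule.ker_subtype U)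
    exact this
  · intro i
    have h := congrArg (fun w : U => (w : V)) (b.sum_repr ⟨u i, Submodule.subset_span ⟨i, rfl⟩⟩)
    simp only [Submodule.coe_sum, Submodule.coe_smul] at h
    exact h.symm

/-- a bilinear expression depends only on the function `∑ u(x) v(z)` -/
theorem wd {ι : Type*} [Fintype ι] (β : C(X, ℂ) →ₗ[ℂ] C(Z, ℂ) →ₗ[ℂ] M)
    (u : ι → C(X, ℂ)) (v : ι → C(Z, ℂ)) (h : ∀ x z, ∑ i, u i x * v i z = 0) :
    ∑ i, β (u i) (v i) = 0 := by
  obtain ⟨d, e, c, he, hu⟩ := exp_basis u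
  have hz : ∀ j, ∑ i, c i j • v i = 0 := by
    intro j
    ext z
    have h1 : ∑ j, (∑ i, c i j * v i z) • e j = 0 := by
      ext x
      simp only [ContinuousMap.coe_sum, Finset.sum_apply, ContinuousMap.coe_smul, Pi.smul_apply,
        smul_eq_mul, ContinuousMap.zero_apply]
      rw [← h x z]
      calc ∑ j, (∑ i, c i j * v i z) * e j x = ∑ j, ∑ i, (c i j * e j x) * v i z := by
            refine Finset.sum_congr rfl fun j _ => ?_
            rw [Finset.sum_mul]
            exact Finset.sum_congr rfl fun i _ => by ring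
        _ = ∑ i, ∑ j, (c i j * e j x) * v i z := Finset.sum_comm
        _ = ∑ i, u i x * v i z := by
            refine Finset.sum_congr rfl fun i _ => ?_
            rw [← Finset.sum_mul, hu i]
            simp only [ContinuousMap.coe_sum, Finset.sum_apply, ContinuousMap.coe_smul,
              Pi.smul_apply, smul_eq_mul]
    have h2 := Fintype.linearIndependent_iff.mp he _ h1 j
    simpa [ContinuousMap.coe_sum, Finset.sum_apply] using h2
  calc ∑ i, β (u i) (v i) = ∑ i, ∑ j, β (e j) (c i j • v i) := by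
        refine Finset.sum_congr rfl fun i _ => ?_
        conv_lhs => rw [hu i]
        rw [map_sum, LinearMap.sum_apply]
        refine Finset.sum_congr rfl fun j _ => ?_
        rw [map_smul, LinearMap.smul_apply, map_smul]
    _ = ∑ j, β (e j) (∑ i, c i j • v i) := by
        rw [Finset.sum_comm]
        refine Finset.sum_congr rfl fun j _ => ?_
        rw [map_sum]
    _ = 0 := by
        refine Finset.sum_eq_zero fun j _ => ?_
        rw [hz j, map_zero]

/-- a trilinear expression depends only on the function `∑ u(x) v(z) w(x')` -/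
theorem wd3 {ι : Type*} [Fintype ι] (β : C(X, ℂ) →ₗ[ℂ] C(Z, ℂ) →ₗ[ℂ] C(X', ℂ) →ₗ[ℂ] M)
    (u : ι → C(X, ℂ)) (v : ι → C(Z, ℂ)) (w : ι → C(X', ℂ))
    (h : ∀ x z x', ∑ i, u i x * v i z * w i x' = 0) :
    ∑ i, β (u i) (v i) (w i) = 0 := by
  obtain ⟨d, e, c, he, hw⟩ := exp_basis w
  have hz : ∀ j x z, ∑ i, (c i j • u i) x * v i z = 0 := by
    intro j x z
    have h1 : ∑ j, (∑ i, c i j * (u i x * v i z)) • e j = 0 := by
      ext x'
      simp only [ContinuousMap.coe_sum, Finset.sum_apply, ContinuousMap.coe_smul, Pi.smul_apply,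
        smul_eq_mul, ContinuousMap.zero_apply]
      rw [← h x z x']
      calc ∑ j, (∑ i, c i j * (u i x * v i z)) * e j x'
          = ∑ j, ∑ i, (u i x * v i z) * (c i j * e j x') := by
            refine Finset.sum_congr rfl fun j _ => ?_
            rw [Finset.sum_mul]
            exact Finset.sum_congr rfl fun i _ => by ring
        _ = ∑ i, ∑ j, (u i x * v i z) * (c i j * e j x') := Finset.sum_comm
        _ = ∑ i, u i x * v i z * w i x' := by
            refine Finset.sum_congr rfl fun i _ => ?_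
            rw [← Finset.mul_sum, hw i]
            simp only [ContinuousMap.coe_sum, Finset.sum_apply, ContinuousMap.coe_smul,
              Pi.smul_apply, smul_eq_mul]
    have h2 := Fintype.linearIndependent_iff.mp he _ h1 j
    rw [← h2]
    refine Finset.sum_congr rfl fun i _ => ?_
    simp only [ContinuousMap.coe_smul, Pi.smul_apply, smul_eq_mul]
    ring
  calc ∑ i, β (u i) (v i) (w i) = ∑ i, ∑ j, β (c i j • u i) (v i) (e j) := by
        refine Finset.sum_congr rfl fun i _ => ?_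
        conv_lhs => rw [hw i]
        rw [map_sum]
        refine Finset.sum_congr rfl fun j _ => ?_
        rw [map_smul, map_smul, LinearMap.smul_apply, LinearMap.smul_apply]
    _ = ∑ j, ∑ i, (β.compr₂ (LinearMap.applyₗ (e j))) (c i j • u i) (v i) := by
        rw [Finset.sum_comm]
        rfl
    _ = 0 := by
        refine Finset.sum_eq_zero fun j _ => ?_
        exact wd _ _ _ (hz j)

end wd

section step

variable {X Z K : Type*} [TopologicalSpace X] [CompactSpace X] [TopologicalSpace Z] [CompactSpace Z]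
  [NormedAddCommGroup K] [InnerProductSpace ℂ K] [CompleteSpace K]

/-- the product of two letters as a bilinear map -/
noncomputable def bil (A : C(X, ℂ) →ₗ[ℂ] (K →L[ℂ] K)) (B : C(Z, ℂ) →ₗ[ℂ] (K →L[ℂ] K)) :
    C(X, ℂ) →ₗ[ℂ] C(Z, ℂ) →ₗ[ℂ] (K →L[ℂ] K) :=
  LinearMap.mk₂ ℂ (fun f g => A f * B g)
    (fun f f' g => by rw [map_add, add_mul])
    (fun c f g => by rw [map_smul, smul_mul_assoc])
    (fun f g g' => by rw [map_add, mul_add])
    (fun c f g => by rw [map_smul, mul_smul_comm])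

@[simp] theorem bil_apply (A : C(X, ℂ) →ₗ[ℂ] (K →L[ℂ] K)) (B : C(Z, ℂ) →ₗ[ℂ] (K →L[ℂ] K))
    (f : C(X, ℂ)) (g : C(Z, ℂ)) : bil A B f g = A f * B g := rfl

/-- equal functions give equal operators -/
theorem op_eq (A : C(X, ℂ) →ₗ[ℂ] (K →L[ℂ] K)) (B : C(Z, ℂ) →ₗ[ℂ] (K →L[ℂ] K))
    {ρ σ : Type*} [Fintype ρ] [Fintype σ] (u : ρ → C(X, ℂ)) (v : ρ → C(Z, ℂ))
    (u' : σ → C(X, ℂ)) (v' : σ → C(Z, ℂ))
    (h : ∀ x z, ∑ r, u r x * v r z = ∑ s, u' s x * v' s z) :
    ∑ r, A (u r) * B (v r) = ∑ s, A (u' s) * B (v' s) := by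
  have h1 := wd (bil A B) (Sum.elim u (fun s => -u' s)) (Sum.elim v v') (by
    intro x z
    rw [Fintype.sum_sum_type]
    simp only [Sum.elim_inl, Sum.elim_inr, ContinuousMap.neg_apply, neg_mul,
      Finset.sum_neg_distrib]
    rw [h x z, add_neg_cancel])
  rw [Fintype.sum_sum_type] at h1
  have h2 : ∀ s, bil A B (-u' s) (v' s) = -(A (u' s) * B (v' s)) := by
    intro s
    rw [bil_apply, map_neg, neg_mul]
  simp only [Sum.elim_inl, Sum.elim_inr, h2, Finset.sum_neg_distrib, add_neg_eq_zero] at h1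
  exact h1

/-- **the cell step** -/
theorem step2 {A : C(X, ℂ) →ₗ[ℂ] (K →L[ℂ] K)} {B : C(Z, ℂ) →ₗ[ℂ] (K →L[ℂ] K)} {CA CB : ℝ}
    (hA0 : 0 ≤ CA) (hB0 : 0 ≤ CB)
    (hAs : ∀ f, A (star f) = star (A f)) (kA : Kad A CA) (kB : Kad B CB)
    {ι : Type} (s : Finset ι) (φ : ι → C(X, ℝ)) (ψ : ι → C(Z, ℝ))
    (hφ0 : ∀ α x, 0 ≤ φ α x) (hφs : ∀ x, ∑ α ∈ s, φ α x = 1)
    (hψ0 : ∀ α z, 0 ≤ ψ α z) (hψ1 : ∀ α z, ψ α z ≤ 1)
    (hkill : ∀ α ∈ s, ∀ (w : C(X, ℂ)) (y : C(Z, ℂ)), A (cx (φ α) * w) * B (y * (1 - cx (ψ α))) = 0)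
    {Cn : ℝ} (hCn : 0 ≤ Cn)
    (hcount : ∀ z, ∀ t ⊆ s, (∀ α ∈ t, ψ α z ≠ 0) → (t.card : ℝ) ≤ Cn)
    {ρ σ : Type} [Fintype ρ] [Fintype σ] (u : ρ → C(X, ℂ)) (v : ρ → C(Z, ℂ))
    (h : ι → σ → C(X, ℂ)) (k : ι → σ → C(Z, ℂ))
    (hid : ∀ α ∈ s, ∀ x z, ∑ r, u r x * v r z = ∑ j, h α j x * k α j z)
    (a b : σ → ℝ) (hb0 : ∀ j, 0 ≤ b j)
    (ha : ∀ α ∈ s, ∀ j x, φ α x ≠ 0 → ‖h α j x‖ ≤ a j)
    (hb : ∀ α ∈ s, ∀ j z, ψ α z ≠ 0 → ‖k α j z‖ ≤ b j)
    (f : C(X, ℂ)) (g : C(Z, ℂ)) :
    ‖∑ r, A (f * u r) * B (g * v r)‖ ≤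
      ∑ j, Real.sqrt (CA * (‖f‖ * a j) ^ 2 * (CB * (Cn * (‖g‖ * b j) ^ 2))) := by
  classical
  let Φ : ι → C(X, ℂ) := fun α => cx (φ α)
  let Ψ : ι → C(Z, ℂ) := fun α => cx (ψ α)
  have hφ1 : ∀ α ∈ s, ∀ x, φ α x ≤ 1 := by
    intro α hα x
    rw [← hφs x]
    exact Finset.single_le_sum (f := fun α => φ α x) (fun α _ => hφ0 α x) hα
  have hΦsum : ∑ α ∈ s, Φ α = 1 := by
    ext x
    simp only [Φ, ContinuousMap.coe_sum, Finset.sum_apply, cx_apply, ContinuousMap.one_apply]
    rw [← Complex.ofReal_sum, hφs x]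
    simp
  have hcut : ∀ α ∈ s, ∀ (w : C(X, ℂ)) (y : C(Z, ℂ)),
      A (Φ α * w) * B y = A (Φ α * w) * B (y * Ψ α) := by
    intro α hα w y
    have h2 : B y = B (y * Ψ α) + B (y * (1 - Ψ α)) := by
      rw [← map_add]
      congr 1
      ring
    rw [h2, mul_add]
    change _ + A (cx (φ α) * w) * B (y * (1 - cx (ψ α))) = _
    rw [hkill α hα w y, add_zero]
  have hdec : ∑ r, A (f * u r) * B (g * v r) =
      ∑ j, ∑ α ∈ s, A (Φ α * (f * h α j)) * B ((g * k α j) * Ψ α) := by
    have e1 : ∀ r, A (f * u r) * B (g * v r) =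
        ∑ α ∈ s, A (Φ α * (f * u r)) * B (g * v r) := by
      intro r
      rw [← Finset.sum_mul, ← map_sum, ← Finset.sum_mul, hΦsum, one_mul]
    rw [Finset.sum_congr rfl (fun r _ => e1 r), Finset.sum_comm]
    conv_rhs => rw [Finset.sum_comm]
    refine Finset.sum_congr rfl fun α hα => ?_
    rw [op_eq A B (fun r => Φ α * (f * u r)) (fun r => g * v r)
      (fun j => Φ α * (f * h α j)) (fun j => g * k α j)]
    · exact Finset.sum_congr rfl fun j _ => hcut α hα _ _
    · intro x z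
      have e2 : ∀ r, (Φ α * (f * u r)) x * (g * v r) z = (Φ α x * f x * g z) * (u r x * v r z) := by
        intro r
        simp only [ContinuousMap.mul_apply]
        ring
      have e3 : ∀ j, (Φ α * (f * h α j)) x * (g * k α j) z =
          (Φ α x * f x * g z) * (h α j x * k α j z) := by
        intro j
        simp only [ContinuousMap.mul_apply]
        ring
      rw [Finset.sum_congr rfl (fun r _ => e2 r), Finset.sum_congr rfl (fun j _ => e3 j),
        ← Finset.mul_sum, ← Finset.mul_sum, hid α hα x z]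
  rw [hdec]
  refine (norm_sum_le _ _).trans (Finset.sum_le_sum fun j _ => ?_)
  apply cs hA0 hB0 hAs kA kB s _ _ (sq_nonneg _) (by positivity)
  · intro x
    calc ∑ α ∈ s, ‖(Φ α * (f * h α j)) x‖ ^ 2 ≤ ∑ α ∈ s, (‖f‖ * a j) ^ 2 * φ α x := by
          apply Finset.sum_le_sum
          intro α hα
          have h0 := hφ0 α x
          have h1 := hφ1 α hα x
          by_cases hx : φ α x = 0
          · simp [Φ, hx]
          have h3 : ‖(Φ α * (f * h α j)) x‖ ≤ (‖f‖ * a j) * φ α x := by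
            simp only [Φ, ContinuousMap.mul_apply, cx_apply, norm_mul, Complex.norm_real,
              Real.norm_eq_abs, abs_of_nonneg h0]
            rw [mul_comm]
            apply mul_le_mul_of_nonneg_right _ h0
            exact mul_le_mul (ContinuousMap.norm_coe_le_norm f x) (ha α hα j x hx)
              (norm_nonneg _) (norm_nonneg _)
          calc ‖(Φ α * (f * h α j)) x‖ ^ 2 ≤ ((‖f‖ * a j) * φ α x) ^ 2 :=
                pow_le_pow_left₀ (norm_nonneg _) h3 2
            _ = (‖f‖ * a j) ^ 2 * (φ α x * φ α x) := by ring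
            _ ≤ (‖f‖ * a j) ^ 2 * (φ α x * 1) := by
                apply mul_le_mul_of_nonneg_left _ (sq_nonneg _)
                exact mul_le_mul_of_nonneg_left h1 h0
            _ = (‖f‖ * a j) ^ 2 * φ α x := by ring
      _ = (‖f‖ * a j) ^ 2 := by rw [← Finset.mul_sum, hφs, mul_one]
  · intro z
    have e1 : ∑ α ∈ s, ‖((g * k α j) * Ψ α) z‖ ^ 2 =
        ∑ α ∈ s.filter (fun α => ψ α z ≠ 0), ‖((g * k α j) * Ψ α) z‖ ^ 2 := by
      symm
      apply Finset.sum_filter_of_ne
      intro α _ hne h0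
      apply hne
      simp [Ψ, h0]
    rw [e1]
    calc ∑ α ∈ s.filter (fun α => ψ α z ≠ 0), ‖((g * k α j) * Ψ α) z‖ ^ 2
        ≤ ∑ _α ∈ s.filter (fun α => ψ α z ≠ 0), (‖g‖ * b j) ^ 2 := by
          apply Finset.sum_le_sum
          intro α hα
          obtain ⟨hα1, hα2⟩ := Finset.mem_filter.mp hα
          apply pow_le_pow_left₀ (norm_nonneg _)
          simp only [Ψ, ContinuousMap.mul_apply, cx_apply, norm_mul, Complex.norm_real,
            Real.norm_eq_abs, abs_of_nonneg (hψ0 α z)]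
          calc ‖g z‖ * ‖k α j z‖ * ψ α z ≤ (‖g‖ * b j) * 1 := by
                apply mul_le_mul _ (hψ1 α z) (hψ0 α z) (mul_nonneg (norm_nonneg _) (hb0 j))
                exact mul_le_mul (ContinuousMap.norm_coe_le_norm g z) (hb α hα1 j z hα2)
                  (norm_nonneg _) (norm_nonneg _)
            _ = ‖g‖ * b j := mul_one _
      _ = ((s.filter (fun α => ψ α z ≠ 0)).card : ℝ) * (‖g‖ * b j) ^ 2 := by
          rw [Finset.sum_const, nsmul_eq_mul]
      _ ≤ Cn * (‖g‖ * b j) ^ 2 := by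
          apply mul_le_mul_of_nonneg_right _ (sq_nonneg _)
          exact hcount z _ (Finset.filter_subset _ _) fun α hα => (Finset.mem_filter.mp hα).2

end step

end Vale.Agent.P092.H283.Car
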