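import Mathlib

/-! # Track C, the shared record of the Carnot cells (literal #9306 of helper878 + (5'))

Points: `Q x = v x (v x)*`, `v x` a unit vector (any choice); lines: `P z` a Lagrangian projection;
`J` the symplectic matrix. One cell system at level `N`, all constants `C` independent of `N`.
Definitions only. -/

namespace Vale.Agent.P092.H283.Car

open Matrix

variable {n : ℕ} {X Z : Type*} [TopologicalSpace X] [TopologicalSpace Z]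

/-- the cells at level `N` -/
structure CD (v : X → Fin n → ℂ) (Q : C(X, Matrix (Fin n) (Fin n) ℂ))
    (P : C(Z, Matrix (Fin n) (Fin n) ℂ)) (J : Matrix (Fin n) (Fin n) ℂ) (C : ℝ) (N : ℕ) where
  ι : Type
  s : Finset ι
  φ : ι → C(X, ℝ)
  xa : ι → X
  ψ : ι → C(Z, ℝ)
  φ0 : ∀ α x, 0 ≤ φ α x
  φs : ∀ x, ∑ α ∈ s, φ α x = 1
  ψ0 : ∀ α z, 0 ≤ ψ α z
  ψ1 : ∀ α z, ψ α z ≤ 1
  /-- (3) -/
  kill : ∀ α ∈ s, ∀ x ∈ tsupport (φ α), ∀ z ∈ tsupport (fun z => 1 - ψ α z), P z * Q x ≠ Q x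
  /-- (4) -/
  nn : ∀ α ∈ s, ∀ z, ψ α z ≠ 0 → ‖v (xa α) - P z *ᵥ v (xa α)‖ ≤ C / N
  bb : ∀ α ∈ s, ∀ z, ψ α z ≠ 0 → ‖(P z *ᵥ v (xa α)) ⬝ᵥ (J *ᵥ v (xa α))‖ ≤ C / N ^ 2
  /-- (5) -/
  cl : ∀ α ∈ s, ∀ x, φ α x ≠ 0 → ∀ i j, ‖Q x i j - Q (xa α) i j‖ ≤ C / N
  /-- (5') -/
  cb : ∀ α ∈ s, ∀ x, φ α x ≠ 0 → ‖v x ⬝ᵥ (J *ᵥ v (xa α))‖ ≤ C / N ^ 2
  /-- (6) -/
  cnt : ∀ z, ∀ t ⊆ s, (∀ β ∈ t, ψ β z ≠ 0) → (t.card : ℝ) ≤ C * N ^ 2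
  /-- (7) -/
  loc : ∀ z, ∀ α ∈ s, ψ α z ≠ 0 → ∀ δ : ℝ, 1 / (N : ℝ) ≤ δ → δ ≤ 1 → ∀ t ⊆ s,
    (∀ β ∈ t, ψ β z ≠ 0 ∧ ∀ i j, ‖Q (xa β) i j - Q (xa α) i j‖ ≤ δ) →
      (t.card : ℝ) ≤ C * (δ * N) ^ 2

/-- **the statement of helper878's `cells`** -/
def CellsStmt (v : X → Fin n → ℂ) (Q : C(X, Matrix (Fin n) (Fin n) ℂ))
    (P : C(Z, Matrix (Fin n) (Fin n) ℂ)) (J : Matrix (Fin n) (Fin n) ℂ) : Prop :=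
  ∃ C : ℝ, 0 < C ∧ ∃ N₀ : ℕ, ∀ N : ℕ, N₀ ≤ N → Nonempty (CD v Q P J C N)

/-- `H(x,z)` has order `e`: on every cell of every level it is a sum of a fixed number `d` of
products `h(x) k(z)` with `|h| ≤ B / N ^ e` on the cell and `|k| ≤ B` on the cut-off. -/
def Ord (v : X → Fin n → ℂ) (Q : C(X, Matrix (Fin n) (Fin n) ℂ))
    (P : C(Z, Matrix (Fin n) (Fin n) ℂ)) (J : Matrix (Fin n) (Fin n) ℂ) (C : ℝ) (e : ℕ)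
    (H : X → Z → ℂ) : Prop :=
  ∃ (d : ℕ) (B : ℝ), 0 ≤ B ∧ ∀ N : ℕ, 1 ≤ N → ∀ D : CD v Q P J C N, ∀ α ∈ D.s,
    ∃ (h : Fin d → C(X, ℂ)) (k : Fin d → C(Z, ℂ)),
      (∀ x z, H x z = ∑ j, h j x * k j z) ∧
      (∀ j x, D.φ α x ≠ 0 → ‖h j x‖ ≤ B / N ^ e) ∧ (∀ j z, D.ψ α z ≠ 0 → ‖k j z‖ ≤ B)

end Vale.Agent.P092.H283.Car
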