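import Vale.Agent.P092.H283.Car1
import Vale.Agent.P092.H283.CarD

/-! # Track C, cells, part 2: the calculus of orders -/

set_option linter.unusedSectionVars false

namespace Vale.Agent.P092.H283.Car

open Matrix Finset

variable {n : ℕ} {X Z : Type*} [TopologicalSpace X] [TopologicalSpace Z]
  {v : X → Fin n → ℂ} {Q : C(X, Matrix (Fin n) (Fin n) ℂ)}
  {P : C(Z, Matrix (Fin n) (Fin n) ℂ)} {J : Matrix (Fin n) (Fin n) ℂ} {C : ℝ}

/-- functions that depend on the cell -/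
abbrev Fam (v : X → Fin n → ℂ) (Q : C(X, Matrix (Fin n) (Fin n) ℂ))
    (P : C(Z, Matrix (Fin n) (Fin n) ℂ)) (J : Matrix (Fin n) (Fin n) ℂ) (C : ℝ) :=
  ∀ N : ℕ, ∀ D : CD v Q P J C N, D.ι → X → Z → ℂ

/-- order of a function that depends on the cell -/
def OrdA (e : ℕ) (H : Fam v Q P J C) : Prop :=
  ∃ (d : ℕ) (B : ℝ), 0 ≤ B ∧ ∀ N : ℕ, 1 ≤ N → ∀ D : CD v Q P J C N, ∀ α ∈ D.s,
    ∃ (h : Fin d → C(X, ℂ)) (k : Fin d → C(Z, ℂ)),
      (∀ x z, H N D α x z = ∑ j, h j x * k j z) ∧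
      (∀ j x, D.φ α x ≠ 0 → ‖h j x‖ ≤ B / N ^ e) ∧ (∀ j z, D.ψ α z ≠ 0 → ‖k j z‖ ≤ B)

theorem ord_iff {e : ℕ} {H : X → Z → ℂ} :
    Ord v Q P J C e H ↔ OrdA (v := v) (Q := Q) (P := P) (J := J) (C := C) e
      (fun _ _ _ x z => H x z) := Iff.rfl

namespace OrdA

variable {e e' : ℕ} {H H' : Fam v Q P J C}

theorem of (σ : Type) [Fintype σ] (B : ℝ) (hB : 0 ≤ B)
    (hh : ∀ N : ℕ, 1 ≤ N → ∀ D : CD v Q P J C N, ∀ α ∈ D.s,
      ∃ (h : σ → C(X, ℂ)) (k : σ → C(Z, ℂ)),
      (∀ x z, H N D α x z = ∑ j, h j x * k j z) ∧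
      (∀ j x, D.φ α x ≠ 0 → ‖h j x‖ ≤ B / N ^ e) ∧ (∀ j z, D.ψ α z ≠ 0 → ‖k j z‖ ≤ B)) :
    OrdA e H := by
  refine ⟨Fintype.card σ, B, hB, fun N hN D α hα => ?_⟩
  obtain ⟨h, k, h1, h2, h3⟩ := hh N hN D α hα
  let E := (Fintype.equivFin σ).symm
  refine ⟨fun j => h (E j), fun j => k (E j), fun x z => ?_, fun j x => h2 _ x,
    fun j z => h3 _ z⟩
  rw [h1 x z]
  exact (Equiv.sum_comp E (fun j => h j x * k j z)).symm

theorem congr (h : OrdA e H) (hH : ∀ N D α x z, H' N D α x z = H N D α x z) : OrdA e H' := by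
  have : H' = H := by
    funext N D α x z
    exact hH N D α x z
  rw [this]
  exact h

theorem pw {N : ℕ} (hN : 1 ≤ N) (e : ℕ) : (0 : ℝ) < (N : ℝ) ^ e := by
  have : (0 : ℝ) < N := by exact_mod_cast hN
  positivity

theorem mono (h : OrdA e' H) (he : e ≤ e') : OrdA e H := by
  obtain ⟨d, B, hB, h⟩ := h
  refine ⟨d, B, hB, fun N hN D α hα => ?_⟩
  obtain ⟨f, g, h1, h2, h3⟩ := h N hN D α hα
  refine ⟨f, g, h1, fun j x hx => (h2 j x hx).trans ?_, h3⟩
  have h1N : (1 : ℝ) ≤ N := by exact_mod_cast hN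
  exact div_le_div_of_nonneg_left hB (pw hN e) (pow_le_pow_right₀ h1N he)

theorem add (h : OrdA e H) (h' : OrdA e H') :
    OrdA e (fun N D α x z => H N D α x z + H' N D α x z) := by
  obtain ⟨d, B, hB, h⟩ := h
  obtain ⟨d', B', hB', h'⟩ := h'
  refine OrdA.of (Fin d ⊕ Fin d') (B + B') (by positivity) fun N hN D α hα => ?_
  obtain ⟨f, g, h1, h2, h3⟩ := h N hN D α hα
  obtain ⟨f', g', h1', h2', h3'⟩ := h' N hN D α hα
  have hp := pw hN e
  refine ⟨Sum.elim f f', Sum.elim g g', fun x z => ?_, ?_, ?_⟩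
  · rw [Fintype.sum_sum_type]
    simp only [Sum.elim_inl, Sum.elim_inr]
    rw [h1, h1']
  · rintro (j | j) x hx
    · refine (h2 j x hx).trans (div_le_div_of_nonneg_right (by linarith) hp.le)
    · refine (h2' j x hx).trans (div_le_div_of_nonneg_right (by linarith) hp.le)
  · rintro (j | j) z hz
    · exact (h3 j z hz).trans (by linarith)
    · exact (h3' j z hz).trans (by linarith)

theorem mul (h : OrdA e H) (h' : OrdA e' H') :
    OrdA (e + e') (fun N D α x z => H N D α x z * H' N D α x z) := by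
  obtain ⟨d, B, hB, h⟩ := h
  obtain ⟨d', B', hB', h'⟩ := h'
  refine OrdA.of (Fin d × Fin d') (B * B') (by positivity) fun N hN D α hα => ?_
  obtain ⟨f, g, h1, h2, h3⟩ := h N hN D α hα
  obtain ⟨f', g', h1', h2', h3'⟩ := h' N hN D α hα
  have hp := pw hN e
  have hp' := pw hN e'
  refine ⟨fun j => f j.1 * f' j.2, fun j => g j.1 * g' j.2, fun x z => ?_, ?_, ?_⟩
  · rw [h1, h1', Finset.sum_mul_sum, Fintype.sum_prod_type]
    refine Finset.sum_congr rfl fun i _ => Finset.sum_congr rfl fun j _ => ?_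
    simp only [ContinuousMap.mul_apply]
    ring
  · rintro ⟨i, j⟩ x hx
    simp only [ContinuousMap.mul_apply, norm_mul]
    rw [pow_add, mul_div_mul_comm]
    exact mul_le_mul (h2 i x hx) (h2' j x hx) (norm_nonneg _) (by positivity)
  · rintro ⟨i, j⟩ z hz
    simp only [ContinuousMap.mul_apply, norm_mul]
    exact mul_le_mul (h3 i z hz) (h3' j z hz) (norm_nonneg _) hB

theorem neg (h : OrdA e H) : OrdA e (fun N D α x z => -H N D α x z) := by
  obtain ⟨d, B, hB, h⟩ := h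
  refine ⟨d, B, hB, fun N hN D α hα => ?_⟩
  obtain ⟨f, g, h1, h2, h3⟩ := h N hN D α hα
  refine ⟨fun j => -f j, g, fun x z => ?_, fun j x hx => ?_, h3⟩
  · change -H N D α x z = _
    rw [h1, ← Finset.sum_neg_distrib]
    exact Finset.sum_congr rfl fun j _ => by simp
  · simpa using h2 j x hx

theorem conj (h : OrdA e H) : OrdA e (fun N D α x z => star (H N D α x z)) := by
  obtain ⟨d, B, hB, h⟩ := h
  refine ⟨d, B, hB, fun N hN D α hα => ?_⟩
  obtain ⟨f, g, h1, h2, h3⟩ := h N hN D α hα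
  refine ⟨fun j => star (f j), fun j => star (g j), fun x z => ?_, fun j x hx => ?_,
    fun j z hz => ?_⟩
  · change star (H N D α x z) = _
    rw [h1, star_sum]
    refine Finset.sum_congr rfl fun j _ => ?_
    rw [ContinuousMap.star_apply, ContinuousMap.star_apply, star_mul, mul_comm]
  · simpa using h2 j x hx
  · simpa using h3 j z hz

theorem zero : OrdA e (fun _ _ _ _ _ => 0 : Fam v Q P J C) := by
  refine ⟨0, 0, le_rfl, fun N hN D α hα => ⟨Fin.elim0, Fin.elim0, ?_, ?_, ?_⟩⟩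
  · intro x z; simp
  · intro j; exact j.elim0
  · intro j; exact j.elim0

theorem sum {τ : Type*} (t : Finset τ) {G : τ → Fam v Q P J C} (h : ∀ i ∈ t, OrdA e (G i)) :
    OrdA e (fun N D α x z => ∑ i ∈ t, G i N D α x z) := by
  classical
  induction t using Finset.induction_on with
  | empty => simpa using (zero (v := v) (Q := Q) (P := P) (J := J) (C := C) (e := e))
  | insert a t ha ih =>
    have h1 := (h a (Finset.mem_insert_self a t)).add
      (ih fun i hi => h i (Finset.mem_insert_of_mem hi))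
    exact h1.congr fun N D α x z => Finset.sum_insert ha

end OrdA

/-! ### the same for functions -/

section Ord

variable {e e' : ℕ} {H H' : X → Z → ℂ}

theorem Ord.congr (h : Ord v Q P J C e H) (hH : ∀ x z, H' x z = H x z) : Ord v Q P J C e H' :=
  OrdA.congr (H := fun _ _ _ x z => H x z) h fun _ _ _ x z => hH x z

theorem Ord.mono (h : Ord v Q P J C e' H) (he : e ≤ e') : Ord v Q P J C e H :=
  OrdA.mono (H := fun _ _ _ x z => H x z) h he

theorem Ord.add (h : Ord v Q P J C e H) (h' : Ord v Q P J C e H') :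
    Ord v Q P J C e (fun x z => H x z + H' x z) :=
  OrdA.add (H := fun _ _ _ x z => H x z) (H' := fun _ _ _ x z => H' x z) h h'

theorem Ord.mul (h : Ord v Q P J C e H) (h' : Ord v Q P J C e' H') :
    Ord v Q P J C (e + e') (fun x z => H x z * H' x z) :=
  OrdA.mul (H := fun _ _ _ x z => H x z) (H' := fun _ _ _ x z => H' x z) h h'

theorem Ord.neg (h : Ord v Q P J C e H) : Ord v Q P J C e (fun x z => -H x z) :=
  OrdA.neg (H := fun _ _ _ x z => H x z) h

theorem Ord.sub (h : Ord v Q P J C e H) (h' : Ord v Q P J C e H') :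
    Ord v Q P J C e (fun x z => H x z - H' x z) :=
  (h.add h'.neg).congr fun x z => sub_eq_add_neg _ _

theorem Ord.conj (h : Ord v Q P J C e H) : Ord v Q P J C e (fun x z => star (H x z)) :=
  OrdA.conj (H := fun _ _ _ x z => H x z) h

theorem Ord.zero : Ord v Q P J C e (fun _ _ => 0) := OrdA.zero

theorem Ord.sum {τ : Type*} (t : Finset τ) {G : τ → X → Z → ℂ}
    (h : ∀ i ∈ t, Ord v Q P J C e (G i)) : Ord v Q P J C e (fun x z => ∑ i ∈ t, G i x z) :=
  OrdA.sum (G := fun i _ _ _ x z => G i x z) t h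

end Ord

end Vale.Agent.P092.H283.Car
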