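import Vale.Agent.P092.H283.Car2

/-! # Track C, cells, part 3: `ord_n`, `ord_k`, and the killed ideal -/

set_option linter.unusedSectionVars false

namespace Vale.Agent.P092.H283.Car

open Matrix Finset Vale.Agent.P092.H283.Syn

variable {n : ℕ} {X Z : Type*} [TopologicalSpace X] [CompactSpace X] [TopologicalSpace Z]
  [CompactSpace Z]
  {v : X → Fin n → ℂ} {Q : C(X, Matrix (Fin n) (Fin n) ℂ)}
  {P : C(Z, Matrix (Fin n) (Fin n) ℂ)} {J : Matrix (Fin n) (Fin n) ℂ} {C : ℝ}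

/-! ### functions of one variable -/

theorem OrdA.ofX {a : ∀ N : ℕ, ∀ D : CD v Q P J C N, D.ι → C(X, ℂ)} {e : ℕ} (B : ℝ) (hB : 0 ≤ B)
    (h : ∀ N : ℕ, 1 ≤ N → ∀ D : CD v Q P J C N, ∀ α ∈ D.s, ∀ x, D.φ α x ≠ 0 →
      ‖a N D α x‖ ≤ B / N ^ e) :
    OrdA (v := v) (Q := Q) (P := P) (J := J) (C := C) e (fun N D α x _ => a N D α x) := by
  refine OrdA.of Unit (B + 1) (by positivity) fun N hN D α hα =>
    ⟨fun _ => a N D α, fun _ => 1, fun x z => by simp, fun _ x hx => ?_, fun _ z _ => ?_⟩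
  · exact (h N hN D α hα x hx).trans
      (div_le_div_of_nonneg_right (by linarith) (OrdA.pw hN e).le)
  · simp only [ContinuousMap.one_apply, norm_one]
    linarith

theorem OrdA.ofZ {b : ∀ N : ℕ, ∀ D : CD v Q P J C N, D.ι → C(Z, ℂ)} {e : ℕ} (B : ℝ) (hB : 0 ≤ B)
    (h : ∀ N : ℕ, 1 ≤ N → ∀ D : CD v Q P J C N, ∀ α ∈ D.s, ∀ z, D.ψ α z ≠ 0 →
      ‖b N D α z‖ ≤ B / N ^ e) :
    OrdA (v := v) (Q := Q) (P := P) (J := J) (C := C) e (fun N D α _ z => b N D α z) := by
  refine OrdA.of Unit (B + 1) (by positivity) fun N hN D α hα =>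
    ⟨fun _ => ContinuousMap.const X ((((N : ℝ) ^ e)⁻¹ : ℝ) : ℂ),
      fun _ => (((N : ℝ) ^ e : ℝ) : ℂ) • b N D α, fun x z => ?_, fun _ x _ => ?_, fun _ z hz => ?_⟩
  · have hp := OrdA.pw hN e
    simp only [Finset.univ_unique, Finset.sum_singleton, ContinuousMap.const_apply,
      ContinuousMap.smul_apply, smul_eq_mul]
    rw [← mul_assoc, ← Complex.ofReal_mul, inv_mul_cancel₀ hp.ne']
    simp
  · have hp := OrdA.pw hN e
    simp only [ContinuousMap.const_apply, Complex.norm_real, Real.norm_eq_abs]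
    rw [abs_of_pos (inv_pos.mpr hp), inv_eq_one_div]
    exact div_le_div_of_nonneg_right (by linarith) hp.le
  · have hp := OrdA.pw hN e
    have h1 := h N hN D α hα z hz
    rw [le_div_iff₀ hp] at h1
    simp only [ContinuousMap.smul_apply, smul_eq_mul, norm_mul, Complex.norm_real,
      Real.norm_eq_abs]
    rw [abs_of_pos hp, mul_comm]
    linarith

theorem ord_x (a : C(X, ℂ)) : Ord v Q P J C 0 (fun x _ => a x) :=
  OrdA.ofX (a := fun _ _ _ => a) ‖a‖ (norm_nonneg _) fun N _ D α _ x _ => by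
    rw [pow_zero, div_one]
    exact ContinuousMap.norm_coe_le_norm a x

theorem ord_z (b : C(Z, ℂ)) : Ord v Q P J C 0 (fun _ z => b z) :=
  OrdA.ofZ (b := fun _ _ _ => b) ‖b‖ (norm_nonneg _) fun N _ D α _ z _ => by
    rw [pow_zero, div_one]
    exact ContinuousMap.norm_coe_le_norm b z

/-! ### matrices -/

/-- matrix valued functions that depend on the cell -/
abbrev MFam (v : X → Fin n → ℂ) (Q : C(X, Matrix (Fin n) (Fin n) ℂ))
    (P : C(Z, Matrix (Fin n) (Fin n) ℂ)) (J : Matrix (Fin n) (Fin n) ℂ) (C : ℝ) :=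
  ∀ N : ℕ, ∀ D : CD v Q P J C N, D.ι → X → Z → Matrix (Fin n) (Fin n) ℂ

/-- every entry has order `e` -/
def OrdM (e : ℕ) (M : MFam v Q P J C) : Prop :=
  ∀ i j, OrdA e (fun N D α x z => M N D α x z i j)

namespace OrdM

variable {e e' : ℕ} {M M' : MFam v Q P J C}

theorem congr (h : OrdM e M) (hM : ∀ N D α x z, M' N D α x z = M N D α x z) : OrdM e M' :=
  fun i j => (h i j).congr fun N D α x z => by rw [hM]

theorem mono (h : OrdM e' M) (he : e ≤ e') : OrdM e M := fun i j => (h i j).mono he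

theorem add (h : OrdM e M) (h' : OrdM e M') :
    OrdM e (fun N D α x z => M N D α x z + M' N D α x z) :=
  fun i j => ((h i j).add (h' i j)).congr fun _ _ _ _ _ => rfl

theorem neg (h : OrdM e M) : OrdM e (fun N D α x z => -M N D α x z) :=
  fun i j => (h i j).neg.congr fun _ _ _ _ _ => rfl

theorem sub (h : OrdM e M) (h' : OrdM e M') :
    OrdM e (fun N D α x z => M N D α x z - M' N D α x z) :=
  (h.add h'.neg).congr fun _ _ _ _ _ => sub_eq_add_neg _ _

theorem mul (h : OrdM e M) (h' : OrdM e' M') :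
    OrdM (e + e') (fun N D α x z => M N D α x z * M' N D α x z) :=
  fun i j => (OrdA.sum Finset.univ fun k _ => (h i k).mul (h' k j)).congr
    fun _ _ _ _ _ => Matrix.mul_apply

theorem transpose (h : OrdM e M) : OrdM e (fun N D α x z => (M N D α x z)ᵀ) :=
  fun i j => h j i

theorem const (A : Matrix (Fin n) (Fin n) ℂ) :
    OrdM (v := v) (Q := Q) (P := P) (J := J) (C := C) 0 (fun _ _ _ _ _ => A) :=
  fun i j => ord_iff.mp ((ord_x (ContinuousMap.const X (A i j))).congr fun _ _ => rfl)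

end OrdM

/-- an entry as a continuous function -/
noncomputable def en {Y : Type*} [TopologicalSpace Y] (M : C(Y, Matrix (Fin n) (Fin n) ℂ))
    (i j : Fin n) : C(Y, ℂ) where
  toFun y := M y i j
  continuous_toFun := (continuous_apply j).comp ((continuous_apply i).comp M.continuous)

@[simp] theorem en_apply {Y : Type*} [TopologicalSpace Y] (M : C(Y, Matrix (Fin n) (Fin n) ℂ))
    (i j : Fin n) (y : Y) : en M i j y = M y i j := rfl

theorem ordQ : OrdM (v := v) (Q := Q) (P := P) (J := J) (C := C) 0 (fun _ _ _ x _ => Q x) :=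
  fun i j => ord_iff.mp ((ord_x (en Q i j)).congr fun _ _ => rfl)

theorem ordP : OrdM (v := v) (Q := Q) (P := P) (J := J) (C := C) 0 (fun _ _ _ _ z => P z) :=
  fun i j => ord_iff.mp ((ord_z (en P i j)).congr fun _ _ => rfl)

theorem ordQ0 : OrdM (v := v) (Q := Q) (P := P) (J := J) (C := C) 0
    (fun _ D α _ _ => Q (D.xa α)) := by
  intro i j
  refine OrdA.ofX (a := fun _ D α => ContinuousMap.const X (Q (D.xa α) i j)) ‖en Q i j‖
    (norm_nonneg _) fun N _ D α _ x _ => ?_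
  rw [pow_zero, div_one, ContinuousMap.const_apply]
  exact ContinuousMap.norm_coe_le_norm (en Q i j) (D.xa α)

/-- (A1) -/
theorem ordD (hC : 0 ≤ C) : OrdM (v := v) (Q := Q) (P := P) (J := J) (C := C) 1
    (fun _ D α x _ => Q x - Q (D.xa α)) := by
  intro i j
  refine OrdA.ofX (a := fun _ D α => en Q i j - ContinuousMap.const X (Q (D.xa α) i j)) C hC
    fun N _ D α hα x hx => ?_
  rw [pow_one]
  exact D.cl α hα x hx i j

theorem unit_le {w : Fin n → ℂ} (h : star w ⬝ᵥ w = 1) (i : Fin n) : ‖w i‖ ≤ 1 := by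
  have h1 : ∑ j, ‖w j‖ ^ 2 = 1 := by
    have h2 : star w ⬝ᵥ w = ((∑ j, ‖w j‖ ^ 2 : ℝ) : ℂ) := by
      rw [dotProduct, Complex.ofReal_sum]
      refine Finset.sum_congr rfl fun j _ => ?_
      rw [Pi.star_apply, Complex.star_def, ← Complex.normSq_eq_conj_mul_self,
        Complex.normSq_eq_norm_sq]
    rw [h] at h2
    exact_mod_cast h2.symm
  have h3 : ‖w i‖ ^ 2 ≤ 1 := by
    rw [← h1]
    exact Finset.single_le_sum (f := fun j => ‖w j‖ ^ 2) (fun _ _ => sq_nonneg _)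
      (Finset.mem_univ i)
  nlinarith [norm_nonneg (w i)]

variable (hv : ∀ x, star (v x) ⬝ᵥ v x = 1) (hQ : ∀ x, Q x = vecMulVec (v x) (star (v x)))

include hv hQ in
/-- (A2) -/
theorem ordN0 (hC : 0 ≤ C) : OrdM (v := v) (Q := Q) (P := P) (J := J) (C := C) 1
    (fun _ D α _ z => (1 - P z) * Q (D.xa α)) := by
  intro i j
  refine OrdA.ofZ (b := fun _ D α => ∑ k, (ContinuousMap.const Z ((1 : Matrix _ _ ℂ) i k) -
    en P i k) * ContinuousMap.const Z (Q (D.xa α) k j)) C hC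
    (fun N _ D α hα z hz => ?_) |>.congr (fun N D α x z => ?_)
  · have h1 := D.nn α hα z hz
    rw [pow_one]
    have h2 : (∑ k, (ContinuousMap.const Z ((1 : Matrix (Fin n) (Fin n) ℂ) i k) -
        en P i k) * ContinuousMap.const Z (Q (D.xa α) k j)) z =
        (v (D.xa α) - P z *ᵥ v (D.xa α)) i * star (v (D.xa α) j) := by
      simp only [ContinuousMap.coe_sum, Finset.sum_apply, ContinuousMap.mul_apply,
        ContinuousMap.sub_apply, ContinuousMap.const_apply, en_apply]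
      have h3 : v (D.xa α) - P z *ᵥ v (D.xa α) = (1 - P z) *ᵥ v (D.xa α) := by
        rw [Matrix.sub_mulVec, Matrix.one_mulVec]
      rw [h3, Matrix.mulVec, dotProduct, Finset.sum_mul]
      refine Finset.sum_congr rfl fun k _ => ?_
      rw [hQ, vecMulVec_apply, Matrix.sub_apply, Pi.star_apply]
      ring
    rw [h2, norm_mul, norm_star]
    have h4 := unit_le (hv (D.xa α)) j
    have h5 := norm_le_pi_norm (v (D.xa α) - P z *ᵥ v (D.xa α)) i
    have h6 := norm_nonneg ((v (D.xa α) - P z *ᵥ v (D.xa α)) i)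
    nlinarith [norm_nonneg (v (D.xa α) j)]
  · change ((1 - P z) * Q (D.xa α)) i j = _
    rw [Matrix.mul_apply]
    simp only [ContinuousMap.coe_sum, Finset.sum_apply, ContinuousMap.mul_apply,
      ContinuousMap.sub_apply, ContinuousMap.const_apply, en_apply, Matrix.sub_apply]

include hv hQ in
/-- **the first order** -/
theorem ordN (hC : 0 ≤ C) : OrdM (v := v) (Q := Q) (P := P) (J := J) (C := C) 1
    (fun _ _ _ x z => (1 - P z) * Q x) := by
  have h1 := (ordN0 (v := v) (Q := Q) (P := P) (J := J) hv hQ hC).add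
    ((((OrdM.const (1 : Matrix (Fin n) (Fin n) ℂ)).sub ordP).mul (ordD hC)))
  refine h1.congr fun N D α x z => ?_
  noncomm_ring

/-! ### the contact entries -/

theorem mat_vmv (A : Matrix (Fin n) (Fin n) ℂ) (a b c d : Fin n → ℂ) (i j : Fin n) :
    (vecMulVec a b * A * vecMulVec c d) i j = a i * (b ⬝ᵥ (A *ᵥ c)) * d j := by
  rw [Matrix.mul_assoc, Matrix.mul_vecMulVec, Matrix.mul_apply]
  simp only [vecMulVec_apply]
  rw [dotProduct, Finset.mul_sum, Finset.sum_mul]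
  exact Finset.sum_congr rfl fun k _ => by ring

theorem transpose_vmv (a b : Fin n → ℂ) : (vecMulVec a b)ᵀ = vecMulVec b a := by
  ext i j
  simp [vecMulVec_apply, mul_comm]

/-- the form is antisymmetric -/
theorem anti (hJ : Jᵀ = -J) (a b : Fin n → ℂ) : a ⬝ᵥ (J *ᵥ b) = -(b ⬝ᵥ (J *ᵥ a)) := by
  have h : J = -Jᵀ := by rw [hJ, neg_neg]
  conv_lhs => rw [h]
  rw [Matrix.neg_mulVec, dotProduct_neg, Matrix.mulVec_transpose, dotProduct_comm,
    Matrix.dotProduct_mulVec]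

include hv hQ in
/-- (A4) -/
theorem ordB0 (hC : 0 ≤ C) : OrdM (v := v) (Q := Q) (P := P) (J := J) (C := C) 2
    (fun _ D α _ z => (Q (D.xa α))ᵀ * (P z)ᵀ * J * Q (D.xa α)) := by
  intro i j
  refine OrdA.ofZ (b := fun _ D α => ⟨fun z => ((Q (D.xa α))ᵀ * (P z)ᵀ * J * Q (D.xa α)) i j, ?_⟩)
    C hC (fun N _ D α hα z hz => ?_) |>.congr (fun N D α x z => rfl)
  · have h1 : Continuous fun z => (Q (D.xa α))ᵀ * (P z)ᵀ * J * Q (D.xa α) := by
      have := P.continuous
      fun_prop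
    exact (continuous_apply j).comp ((continuous_apply i).comp h1)
  · have h1 := D.bb α hα z hz
    have h2 : ((Q (D.xa α))ᵀ * (P z)ᵀ * J * Q (D.xa α)) i j =
        star (v (D.xa α) i) * ((P z *ᵥ v (D.xa α)) ⬝ᵥ (J *ᵥ v (D.xa α))) *
          star (v (D.xa α) j) := by
      rw [hQ, transpose_vmv, Matrix.mul_assoc (vecMulVec _ _) (P z)ᵀ J, mat_vmv,
        ← Matrix.mulVec_mulVec, Matrix.dotProduct_mulVec, Matrix.vecMul_transpose]
      rfl
    change ‖((Q (D.xa α))ᵀ * (P z)ᵀ * J * Q (D.xa α)) i j‖ ≤ _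
    rw [h2, norm_mul, norm_mul, norm_star, norm_star]
    have h4 := unit_le (hv (D.xa α)) j
    have h5 := unit_le (hv (D.xa α)) i
    calc ‖v (D.xa α) i‖ * ‖(P z *ᵥ v (D.xa α)) ⬝ᵥ (J *ᵥ v (D.xa α))‖ * ‖v (D.xa α) j‖
        ≤ 1 * (C / N ^ 2) * 1 := by
          apply mul_le_mul _ h4 (norm_nonneg _) (by positivity)
          exact mul_le_mul h5 h1 (norm_nonneg _) zero_le_one
      _ = C / N ^ 2 := by ring

include hv hQ in
/-- (A5) -/
theorem ordC0 (hC : 0 ≤ C) (hJ : Jᵀ = -J) :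
    OrdM (v := v) (Q := Q) (P := P) (J := J) (C := C) 2
    (fun _ D α x _ => (Q (D.xa α))ᵀ * J * Q x) := by
  intro i j
  refine OrdA.ofX (a := fun _ D α => ⟨fun x => ((Q (D.xa α))ᵀ * J * Q x) i j, ?_⟩)
    C hC (fun N _ D α hα x hx => ?_) |>.congr (fun N D α x z => rfl)
  · have h1 : Continuous fun x => (Q (D.xa α))ᵀ * J * Q x := by
      have := Q.continuous
      fun_prop
    exact (continuous_apply j).comp ((continuous_apply i).comp h1)
  · have h1 := D.cb α hα x hx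
    have h2 : ((Q (D.xa α))ᵀ * J * Q x) i j =
        star (v (D.xa α) i) * (v (D.xa α) ⬝ᵥ (J *ᵥ v x)) * star (v x j) := by
      rw [hQ, hQ, transpose_vmv, mat_vmv]
      rfl
    change ‖((Q (D.xa α))ᵀ * J * Q x) i j‖ ≤ _
    rw [h2, norm_mul, norm_mul, norm_star, norm_star, anti hJ, norm_neg]
    have h4 := unit_le (hv x) j
    have h5 := unit_le (hv (D.xa α)) i
    calc ‖v (D.xa α) i‖ * ‖v x ⬝ᵥ (J *ᵥ v (D.xa α))‖ * ‖v x j‖
        ≤ 1 * (C / N ^ 2) * 1 := by
          apply mul_le_mul _ h4 (norm_nonneg _) (by positivity)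
          exact mul_le_mul h5 h1 (norm_nonneg _) zero_le_one
      _ = C / N ^ 2 := by ring

include hQ in
theorem self_zero (hJ : Jᵀ = -J) (x : X) : (Q x)ᵀ * J * Q x = 0 := by
  ext i j
  rw [hQ, transpose_vmv, mat_vmv]
  have h := anti hJ (v x) (v x)
  have h2 : v x ⬝ᵥ (J *ᵥ v x) = 0 := by
    have : (2 : ℂ) * (v x ⬝ᵥ (J *ᵥ v x)) = 0 := by linear_combination h
    simpa using this
  rw [h2]
  simp

include hv hQ in
/-- **the contact entries have order two** -/
theorem ordB (hC : 0 ≤ C) (hJ : Jᵀ = -J) (hL : ∀ z, (P z)ᵀ * J = J * (1 - P z)) :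
    OrdM (v := v) (Q := Q) (P := P) (J := J) (C := C) 2
    (fun _ _ _ x z => (Q x)ᵀ * (P z)ᵀ * J * Q x) := by
  have hN0 := ordN0 (v := v) (Q := Q) (P := P) (J := J) hv hQ hC
  have hD := ordD (v := v) (Q := Q) (P := P) (J := J) hC
  have hJ0 := OrdM.const (v := v) (Q := Q) (P := P) (J := J) (C := C) J
  have t1 := ordB0 (v := v) (Q := Q) (P := P) (J := J) hv hQ hC
  have t2 := ordC0 (v := v) (Q := Q) (P := P) (J := J) hv hQ hC hJ
  have t3 := (hN0.transpose.mul hJ0).mul hD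
  have t4 := (hD.transpose.mul hJ0).mul hN0
  have t5 := ((hD.transpose.mul (ordP (v := v) (Q := Q) (P := P) (J := J)).transpose).mul
    hJ0).mul hD
  refine ((((t1.add t2).sub t3).add t4).add t5).congr fun N D α x z => ?_
  have hs := self_zero (v := v) (Q := Q) (J := J) hQ hJ (D.xa α)
  have e1 : (Q x - Q (D.xa α))ᵀ * J * ((1 - P z) * Q (D.xa α)) =
      (Q x - Q (D.xa α))ᵀ * (P z)ᵀ * J * Q (D.xa α) := by
    rw [Matrix.mul_assoc (Q x - Q (D.xa α))ᵀ (P z)ᵀ J, hL z]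
    simp only [Matrix.mul_assoc]
  have e2 : ((1 - P z) * Q (D.xa α))ᵀ * J * (Q x - Q (D.xa α)) =
      (Q (D.xa α))ᵀ * J * Q x - (Q (D.xa α))ᵀ * (P z)ᵀ * J * (Q x - Q (D.xa α)) := by
    have e3 : ((1 - P z) * Q (D.xa α))ᵀ = (Q (D.xa α))ᵀ - (Q (D.xa α))ᵀ * (P z)ᵀ := by
      rw [Matrix.transpose_mul, Matrix.transpose_sub, Matrix.transpose_one, Matrix.mul_sub,
        Matrix.mul_one]
    have e4 : (Q (D.xa α))ᵀ * J * (Q x - Q (D.xa α)) = (Q (D.xa α))ᵀ * J * Q x := by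
      rw [Matrix.mul_sub, hs, sub_zero]
    rw [e3, Matrix.sub_mul, Matrix.sub_mul, e4]
  rw [e1, e2]
  simp only [Matrix.transpose_sub]
  noncomm_ring

end Vale.Agent.P092.H283.Car
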