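import Vale.Agent.P092.H283.Car3
import Vale.Agent.P092.H828.P.Q0a

/-! # Track C, cells, part 4: the killed ideal -/

set_option linter.unusedSectionVars false

namespace Vale.Agent.P092.H283.Car

open Matrix Finset Vale.Agent.P092.H283.Syn
open Vale.Agent.P092.H828.P (UL)

variable {n : ℕ} {X Z : Type*} [TopologicalSpace X] [CompactSpace X] [TopologicalSpace Z]
  [CompactSpace Z]
  {v : X → Fin n → ℂ} {Q : C(X, Matrix (Fin n) (Fin n) ℂ)}
  {P : C(Z, Matrix (Fin n) (Fin n) ℂ)} {J : Matrix (Fin n) (Fin n) ℂ} {C : ℝ}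

section entries

variable (hv : ∀ x, star (v x) ⬝ᵥ v x = 1) (hQ : ∀ x, Q x = vecMulVec (v x) (star (v x)))

include hv hQ in
/-- **first order entries** -/
theorem ord_n (hC : 0 ≤ C) (i j : Fin n) :
    Ord v Q P J C 1 (fun x z => ((1 - P z) * Q x) i j) :=
  ord_iff.mpr (ordN hv hQ hC i j)

include hv hQ in
/-- **contact entries**, first form -/
theorem ord_k' (hC : 0 ≤ C) (hJ : Jᵀ = -J) (hL : ∀ z, (P z)ᵀ * J = J * (1 - P z)) (i j : Fin n) :
    Ord v Q P J C 2 (fun x z => ((Q x)ᵀ * (P z)ᵀ * J * Q x) i j) :=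
  ord_iff.mpr (ordB hv hQ hC hJ hL i j)

include hv hQ in
/-- **contact entries**, second form -/
theorem ord_k (hC : 0 ≤ C) (hJ : Jᵀ = -J) (hJr : J.map star = J) (hP : ∀ z, (P z)ᴴ = P z)
    (hL : ∀ z, (P z)ᵀ * J = J * (1 - P z)) (i j : Fin n) :
    Ord v Q P J C 2 (fun x z => (Q x * P z * J * (Q x)ᵀ) i j) := by
  refine (ord_k' hv hQ hC hJ hL i j).conj.congr fun x z => ?_
  have hQh : (Q x)ᴴ = Q x := by
    rw [hQ]
    ext a b
    simp [Matrix.conjTranspose_apply, vecMulVec_apply, mul_comm]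
  have e1 : ((Q x)ᵀ).map star = Q x := by
    conv_rhs => rw [← hQh]
    rfl
  have e2 : ((P z)ᵀ).map star = P z := by
    conv_rhs => rw [← hP z]
    rfl
  have e3 : (Q x).map star = (Q x)ᵀ := by
    conv_rhs => rw [← hQh]
    ext a b
    simp [Matrix.conjTranspose_apply]
  have e4 : ((Q x)ᵀ * (P z)ᵀ * J * Q x).map star = Q x * P z * J * (Q x)ᵀ := by
    have h0 : ∀ M N : Matrix (Fin n) (Fin n) ℂ, (M * N).map star = M.map star * N.map star := by
      intro M N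
      exact Matrix.map_mul (f := starRingEnd ℂ)
    rw [h0, h0, h0, e1, e2, hJr, e3]
  rw [← e4]
  rfl

end entries

section kill

variable {K : Type*} [NormedAddCommGroup K] [InnerProductSpace ℂ K] [CompleteSpace K]
  {E : C(X, ℂ) →ₗ[ℂ] (K →L[ℂ] K)} {F : C(Z, ℂ) →ₗ[ℂ] (K →L[ℂ] K)} {p q : ℝ}

/-- **every tensor whose function has order two is killed** -/
theorem Ord.kill' {CA CB : ℝ} (hA0 : 0 ≤ CA) (hB0 : 0 ≤ CB)
    (hEs : ∀ f, E (star f) = star (E f)) (kE : Kad E CA) (kF : Kad F CB)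
    (hC : 0 ≤ C) (hcell : ∃ N₀ : ℕ, ∀ N : ℕ, N₀ ≤ N → Nonempty (CD v Q P J C N))
    (hI : ∀ (f : C(X, ℂ)) (g : C(Z, ℂ)),
      (∀ x ∈ tsupport f, ∀ z ∈ tsupport g, P z * Q x ≠ Q x) → E f * F g = 0)
    {H : X → Z → ℂ} (hH : Ord v Q P J C 2 H)
    {ρ : Type} [Fintype ρ] (u : ρ → C(X, ℂ)) (w : ρ → C(Z, ℂ))
    (huw : ∀ x z, ∑ r, u r x * w r z = H x z) (f : C(X, ℂ)) (g : C(Z, ℂ)) :
    ∑ r, E (f * u r) * F (g * w r) = 0 := by
  classical
  obtain ⟨N₀, hcell⟩ := hcell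
  obtain ⟨d, B, hB, hH⟩ := hH
  have key : ∀ N : ℕ, max N₀ 1 ≤ N → ‖∑ r, E (f * u r) * F (g * w r)‖ ≤
      (∑ _j : Fin d, Real.sqrt (CA * (‖f‖ * B) ^ 2 * (CB * (C * (‖g‖ * B) ^ 2)))) * (1 / N) := by
    intro N hN
    obtain ⟨D⟩ := hcell N ((le_max_left _ _).trans hN)
    have hN1 : 1 ≤ N := (le_max_right _ _).trans hN
    have hNpos : (0 : ℝ) < N := by exact_mod_cast hN1
    have hkill : ∀ α ∈ D.s, ∀ (a : C(X, ℂ)) (y : C(Z, ℂ)),
        E (cx (D.φ α) * a) * F (y * (1 - cx (D.ψ α))) = 0 := by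
      intro α hα a y
      apply hI
      intro x hx z hz
      apply D.kill α hα x _ z _
      · refine closure_mono ?_ hx
        intro x hx h0
        apply hx
        simp [h0]
      · refine closure_mono ?_ hz
        intro z hz h0
        apply hz
        have h1 : D.ψ α z = 1 := by
          have : 1 - D.ψ α z = 0 := h0
          linarith
        simp [h1]
    choose! h k h1 h2 h3 using hH N hN1 D
    have hstep := step2 hA0 hB0 hEs kE kF D.s D.φ D.ψ D.φ0 D.φs D.ψ0 D.ψ1 hkill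
      (Cn := C * N ^ 2) (by positivity) D.cnt u w h k
      (fun α hα x z => (huw x z).trans (h1 α hα x z))
      (fun _ => B / N ^ 2) (fun _ => B) (fun _ => hB) (fun α hα j x hx => h2 α hα j x hx)
      (fun α hα j z hz => h3 α hα j z hz) f g
    refine hstep.trans (le_of_eq ?_)
    rw [Finset.sum_mul]
    refine Finset.sum_congr rfl fun j _ => ?_
    have e1 : CA * (‖f‖ * (B / N ^ 2)) ^ 2 * (CB * (C * N ^ 2 * (‖g‖ * B) ^ 2)) =
        (CA * (‖f‖ * B) ^ 2 * (CB * (C * (‖g‖ * B) ^ 2))) * (1 / N) ^ 2 := by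
      field_simp
    rw [e1, Real.sqrt_mul (by positivity), Real.sqrt_sq (by positivity)]
  have hlim : Filter.Tendsto (fun N : ℕ =>
      (∑ _j : Fin d, Real.sqrt (CA * (‖f‖ * B) ^ 2 * (CB * (C * (‖g‖ * B) ^ 2)))) * (1 / (N : ℝ)))
      Filter.atTop (nhds 0) := by
    have h1 := (tendsto_one_div_atTop_nhds_zero_nat (𝕜 := ℝ)).const_mul
      (∑ _j : Fin d, Real.sqrt (CA * (‖f‖ * B) ^ 2 * (CB * (C * (‖g‖ * B) ^ 2))))
    rw [mul_zero] at h1
    exact h1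
  have hle : ‖∑ r, E (f * u r) * F (g * w r)‖ ≤ 0 := by
    apply ge_of_tendsto hlim
    filter_upwards [Filter.eventually_ge_atTop (max N₀ 1)] with N hN
    exact key N hN
  exact norm_le_zero_iff.mp hle

/-- **every tensor whose function has order two is killed**, for two letters `UL` -/
theorem Ord.kill (hp : 0 ≤ p) (hq : 0 ≤ q) (hE : UL E p) (hF : UL F q)
    (hC : 0 ≤ C) (hcell : ∃ N₀ : ℕ, ∀ N : ℕ, N₀ ≤ N → Nonempty (CD v Q P J C N))
    (hI : ∀ (f : C(X, ℂ)) (g : C(Z, ℂ)),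
      (∀ x ∈ tsupport f, ∀ z ∈ tsupport g, P z * Q x ≠ Q x) → E f * F g = 0)
    {H : X → Z → ℂ} (hH : Ord v Q P J C 2 H)
    {ρ : Type} [Fintype ρ] (u : ρ → C(X, ℂ)) (w : ρ → C(Z, ℂ))
    (huw : ∀ x z, ∑ r, u r x * w r z = H x z) :
    ∑ r, E (u r) * F (w r) = 0 := by
  have h := Ord.kill' hp hq hE.star (fun _ s v M hM ξ => hE.bes_le s v M hM ξ)
    (fun _ s v M hM ξ => hF.bes_le s v M hM ξ) hC hcell hI hH u w huw 1 1
  simpa using h

end kill

end Vale.Agent.P092.H283.Car
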