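import Vale.Agent.P092.H283.Car4
import Vale.Agent.P092.H378.C1

/-! # Track C, cells, part 5: the near-diagonal bound for three letters -/

set_option linter.unusedSectionVars false

namespace Vale.Agent.P092.H283.Car

open Matrix Finset Vale.Agent.P092.H283.Syn
open Vale.Agent.P092.H828.P (UL)
open scoped InnerProductSpace

section tri

variable {X Z X' K : Type*} [TopologicalSpace X] [TopologicalSpace Z] [TopologicalSpace X']
  [NormedAddCommGroup K] [InnerProductSpace ℂ K] [CompleteSpace K]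

/-- three letters as a trilinear map -/
noncomputable def tri (A : C(X, ℂ) →ₗ[ℂ] (K →L[ℂ] K)) (B : C(Z, ℂ) →ₗ[ℂ] (K →L[ℂ] K))
    (A' : C(X', ℂ) →ₗ[ℂ] (K →L[ℂ] K)) :
    C(X, ℂ) →ₗ[ℂ] C(Z, ℂ) →ₗ[ℂ] C(X', ℂ) →ₗ[ℂ] (K →L[ℂ] K) :=
  (LinearMap.mk₂ ℂ (fun f g => A f * B g)
    (fun f f' g => by rw [map_add, add_mul])
    (fun c f g => by rw [map_smul, smul_mul_assoc])
    (fun f g g' => by rw [map_add, mul_add])
    (fun c f g => by rw [map_smul, mul_smul_comm])).compr₂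
      ((LinearMap.mul ℂ (K →L[ℂ] K)).compl₂ A')

@[simp] theorem tri_apply (A : C(X, ℂ) →ₗ[ℂ] (K →L[ℂ] K)) (B : C(Z, ℂ) →ₗ[ℂ] (K →L[ℂ] K))
    (A' : C(X', ℂ) →ₗ[ℂ] (K →L[ℂ] K)) (f : C(X, ℂ)) (g : C(Z, ℂ)) (f' : C(X', ℂ)) :
    tri A B A' f g f' = A f * B g * A' f' := rfl

/-- equal functions of three variables give equal operators -/
theorem op_eq3 (A : C(X, ℂ) →ₗ[ℂ] (K →L[ℂ] K)) (B : C(Z, ℂ) →ₗ[ℂ] (K →L[ℂ] K))
    (A' : C(X', ℂ) →ₗ[ℂ] (K →L[ℂ] K))
    {ρ σ : Type*} [Fintype ρ] [Fintype σ] (u : ρ → C(X, ℂ)) (v : ρ → C(Z, ℂ)) (w : ρ → C(X', ℂ))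
    (u' : σ → C(X, ℂ)) (v' : σ → C(Z, ℂ)) (w' : σ → C(X', ℂ))
    (h : ∀ x z x', ∑ r, u r x * v r z * w r x' = ∑ s, u' s x * v' s z * w' s x') :
    ∑ r, A (u r) * B (v r) * A' (w r) = ∑ s, A (u' s) * B (v' s) * A' (w' s) := by
  have h1 := wd3 (tri A B A') (Sum.elim u (fun s => -u' s)) (Sum.elim v v') (Sum.elim w w') (by
    intro x z x'
    rw [Fintype.sum_sum_type]
    simp only [Sum.elim_inl, Sum.elim_inr, ContinuousMap.neg_apply, neg_mul,
      Finset.sum_neg_distrib]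
    rw [h x z x', add_neg_cancel])
  rw [Fintype.sum_sum_type] at h1
  have h2 : ∀ s, tri A B A' (-u' s) (v' s) (w' s) = -(A (u' s) * B (v' s) * A' (w' s)) := by
    intro s
    rw [tri_apply, map_neg, neg_mul, neg_mul]
  simp only [Sum.elim_inl, Sum.elim_inr, h2, Finset.sum_neg_distrib, add_neg_eq_zero] at h1
  exact h1

end tri

variable {n : ℕ} {X Z : Type*} [TopologicalSpace X] [CompactSpace X] [TopologicalSpace Z]
  [CompactSpace Z]
  {v : X → Fin n → ℂ} {Q : C(X, Matrix (Fin n) (Fin n) ℂ)}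
  {P : C(Z, Matrix (Fin n) (Fin n) ℂ)} {J : Matrix (Fin n) (Fin n) ℂ} {C : ℝ}
  {K : Type*} [NormedAddCommGroup K] [InnerProductSpace ℂ K] [CompleteSpace K]
  {E : C(X, ℂ) →ₗ[ℂ] (K →L[ℂ] K)} {F : C(Z, ℂ) →ₗ[ℂ] (K →L[ℂ] K)} {p q : ℝ}

theorem cut_l
    (hI : ∀ (f : C(X, ℂ)) (g : C(Z, ℂ)),
      (∀ x ∈ tsupport f, ∀ z ∈ tsupport g, P z * Q x ≠ Q x) → E f * F g = 0)
    {N : ℕ} (D : CD v Q P J C N) {α : D.ι} (hα : α ∈ D.s) (a : C(X, ℂ)) (y : C(Z, ℂ)) :
    E (cx (D.φ α) * a) * F y = E (cx (D.φ α) * a) * F (y * cx (D.ψ α)) := by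
  have h0 : E (cx (D.φ α) * a) * F (y * (1 - cx (D.ψ α))) = 0 := by
    apply hI
    intro x hx z hz
    apply D.kill α hα x _ z _
    · refine closure_mono ?_ hx
      intro x hx h0
      apply hx
      simp [h0]
    · refine closure_mono ?_ hz
      intro z hz h0
      apply hz
      have h1 : D.ψ α z = 1 := by
        have : 1 - D.ψ α z = 0 := h0
        linarith
      simp [h1]
  have h2 : F y = F (y * cx (D.ψ α)) + F (y * (1 - cx (D.ψ α))) := by
    rw [← map_add]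
    congr 1
    ring
  rw [h2, mul_add, h0, add_zero]

theorem star_cx {Y : Type*} [TopologicalSpace Y] (h : C(Y, ℝ)) : star (cx h) = cx h := by
  ext y
  rw [ContinuousMap.star_apply, cx_apply]
  exact Complex.conj_ofReal _

theorem cut_r (hE : UL E p) (hF : UL F q)
    (hI : ∀ (f : C(X, ℂ)) (g : C(Z, ℂ)),
      (∀ x ∈ tsupport f, ∀ z ∈ tsupport g, P z * Q x ≠ Q x) → E f * F g = 0)
    {N : ℕ} (D : CD v Q P J C N) {α : D.ι} (hα : α ∈ D.s) (a : C(X, ℂ)) (y : C(Z, ℂ)) :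
    F y * E (cx (D.φ α) * a) = F (y * cx (D.ψ α)) * E (cx (D.φ α) * a) := by
  have h := congrArg star (cut_l hI D hα (star a) (star y))
  rw [star_mul, star_mul, ← hE.star, ← hF.star, ← hF.star] at h
  simp only [star_mul, star_star, star_cx] at h
  rw [mul_comm a, mul_comm (cx (D.ψ α))] at h
  exact h

theorem fin_id (q B B' C p a b δ c N : ℝ) (hN : 0 < N) :
    4 * (q * (B * B' * (C * (δ * N) ^ 2)) * (p * (a * (B / N)) * (b * (B' / N)) * c ^ 2)) =
      4 * (q * (B * B' * C) * (p * (a * B) * (b * B'))) * δ ^ 2 * c ^ 2 := by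
  have e : N * N⁻¹ = 1 := mul_inv_cancel₀ hN.ne'
  rw [div_eq_mul_inv, div_eq_mul_inv]
  calc _ = (4 * (q * (B * B' * C) * (p * (a * B) * (b * B'))) * δ ^ 2 * c ^ 2) *
        (N * N⁻¹) ^ 2 := by ring
    _ = _ := by rw [e]; ring

/-- **the near-diagonal bound** -/
theorem near (hp : 0 ≤ p) (hq : 0 ≤ q) (hE : UL E p) (hF : UL F q) (hC : 0 ≤ C)
    (hI : ∀ (f : C(X, ℂ)) (g : C(Z, ℂ)),
      (∀ x ∈ tsupport f, ∀ z ∈ tsupport g, P z * Q x ≠ Q x) → E f * F g = 0)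
    {H H' : X → Z → ℂ} (hH : Ord v Q P J C 1 H) (hH' : Ord v Q P J C 1 H') (f f' : C(X, ℂ))
    {ρ σ : Type} [Fintype ρ] [Fintype σ] (u : ρ → C(X, ℂ)) (w : ρ → C(Z, ℂ))
    (u' : σ → C(X, ℂ)) (w' : σ → C(Z, ℂ)) (hu : ∀ x z, ∑ r, u r x * w r z = H x z)
    (hu' : ∀ x z, ∑ t, u' t x * w' t z = H' x z) :
    ∃ C' : ℝ, 0 ≤ C' ∧ ∀ N : ℕ, 1 ≤ N → ∀ D : CD v Q P J C N, ∀ δ : ℝ, 1 / (N : ℝ) ≤ δ → δ ≤ 1 →
      ∀ (R : D.ι → D.ι → Prop) [DecidableRel R],
      (∀ α β, R α β → ∀ i j, ‖Q (D.xa β) i j - Q (D.xa α) i j‖ ≤ δ) → ∀ ζ : K,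
      ‖∑ α ∈ D.s, ∑ β ∈ D.s, if R α β then ∑ r, ∑ t, ⟪ζ, (E (cx (D.φ α) * (f * u r)) *
        F (w r * w' t) * E (cx (D.φ β) * (f' * u' t))) ζ⟫_ℂ else 0‖ ≤ C' * δ ^ 2 * ‖ζ‖ ^ 2 := by
  classical
  obtain ⟨d, B, hB, hH⟩ := hH
  obtain ⟨d', B', hB', hH'⟩ := hH'
  refine ⟨∑ _i : Fin d, ∑ _j : Fin d', 4 * (q * (B * B' * C) * (p * (‖f‖ * B) * (‖f'‖ * B'))),
    by positivity, ?_⟩
  intro N hN D δ hδ1 hδ2 R _ hR ζ
  have hNpos : (0 : ℝ) < N := by exact_mod_cast hN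
  have hδ0 : 0 ≤ δ := le_trans (by positivity) hδ1
  choose! h k h1 h2 h3 using hH N hN D
  choose! h' k' h1' h2' h3' using hH' N hN D
  let za : Fin d → D.ι → K := fun i α => E (star (cx (D.φ α) * (f * h α i))) ζ
  let eb : Fin d' → D.ι → K := fun j β => E (cx (D.φ β) * (f' * h' β j)) ζ
  let m : Fin d → Fin d' → D.ι → D.ι → C(Z, ℂ) := fun i j α β =>
    if R α β then (k α i * k' β j) * cx (D.ψ α) * cx (D.ψ β) else 0
  -- the identity on every pair of cells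
  have hpair : ∀ α ∈ D.s, ∀ β ∈ D.s,
      (if R α β then ∑ r, ∑ t, ⟪ζ, (E (cx (D.φ α) * (f * u r)) *
        F (w r * w' t) * E (cx (D.φ β) * (f' * u' t))) ζ⟫_ℂ else 0) =
      ∑ i, ∑ j, ⟪za i α, F (m i j α β) (eb j β)⟫_ℂ := by
    intro α hα β hβ
    by_cases hr : R α β
    · rw [if_pos hr]
      have e1 : ∑ x : ρ × σ, E (cx (D.φ α) * (f * u x.1)) * F (w x.1 * w' x.2) *
          E (cx (D.φ β) * (f' * u' x.2)) =
          ∑ x : Fin d × Fin d', E (cx (D.φ α) * (f * h α x.1)) * F (k α x.1 * k' β x.2) *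
          E (cx (D.φ β) * (f' * h' β x.2)) := by
        apply op_eq3
        intro x z x'
        have e2 : ∀ y : ρ × σ, (cx (D.φ α) * (f * u y.1)) x * (w y.1 * w' y.2) z *
            (cx (D.φ β) * (f' * u' y.2)) x' =
            (cx (D.φ α) x * f x * (cx (D.φ β) x' * f' x')) *
              ((u y.1 x * w y.1 z) * (u' y.2 x' * w' y.2 z)) := by
          intro y
          simp only [ContinuousMap.mul_apply]
          ring
        have e3 : ∀ y : Fin d × Fin d', (cx (D.φ α) * (f * h α y.1)) x *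
            (k α y.1 * k' β y.2) z * (cx (D.φ β) * (f' * h' β y.2)) x' =
            (cx (D.φ α) x * f x * (cx (D.φ β) x' * f' x')) *
              ((h α y.1 x * k α y.1 z) * (h' β y.2 x' * k' β y.2 z)) := by
          intro y
          simp only [ContinuousMap.mul_apply]
          ring
        rw [Finset.sum_congr rfl (fun y _ => e2 y), Finset.sum_congr rfl (fun y _ => e3 y),
          ← Finset.mul_sum, ← Finset.mul_sum, Fintype.sum_prod_type, Fintype.sum_prod_type]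
        congr 1
        simp only
        rw [← Finset.sum_mul_sum, ← Finset.sum_mul_sum, hu x z, hu' x' z, ← h1 α hα x z,
          ← h1' β hβ x' z]
      have e4 : ∑ r, ∑ t, ⟪ζ, (E (cx (D.φ α) * (f * u r)) *
          F (w r * w' t) * E (cx (D.φ β) * (f' * u' t))) ζ⟫_ℂ =
          ⟪ζ, (∑ x : ρ × σ, E (cx (D.φ α) * (f * u x.1)) * F (w x.1 * w' x.2) *
          E (cx (D.φ β) * (f' * u' x.2))) ζ⟫_ℂ := by
        rw [_root_.sum_apply, inner_sum, Fintype.sum_prod_type]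
      rw [e4, e1, _root_.sum_apply, inner_sum, Fintype.sum_prod_type]
      refine Finset.sum_congr rfl fun i _ => Finset.sum_congr rfl fun j _ => ?_
      simp only [za, eb, m, if_pos hr]
      rw [cut_l hI D hα, mul_assoc, cut_r hE hF hI D hβ]
      simp only [mul_apply_eq_comp]
      rw [← ContinuousLinearMap.adjoint_inner_left, ← ContinuousLinearMap.star_eq_adjoint,
        ← hE.star]
    · rw [if_neg hr]
      symm
      apply Finset.sum_eq_zero
      intro i _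
      apply Finset.sum_eq_zero
      intro j _
      simp only [m, if_neg hr, map_zero]
      simp
  -- bound of the kernel
  set M : ℝ := B * B' * (C * (δ * N) ^ 2) with hM
  have hM0 : 0 ≤ M := by positivity
  have hcut : ∀ (α : D.ι) (z : Z), ‖cx (D.ψ α) z‖ ≤ 1 := by
    intro α z
    rw [cx_apply, Complex.norm_real, Real.norm_eq_abs, abs_of_nonneg (D.ψ0 α z)]
    exact D.ψ1 α z
  have hmz : ∀ i j, ∀ α ∈ D.s, ∀ β ∈ D.s, ∀ z, ‖m i j α β z‖ ≤ B * B' := by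
    intro i j α hα β hβ z
    by_cases hr : R α β
    · simp only [m, if_pos hr, ContinuousMap.mul_apply, norm_mul]
      by_cases ha : D.ψ α z = 0
      · simp only [cx_apply, ha, Complex.ofReal_zero, norm_zero, mul_zero, zero_mul]
        positivity
      by_cases hb : D.ψ β z = 0
      · simp only [cx_apply, hb, Complex.ofReal_zero, norm_zero, mul_zero]
        positivity
      have a1 := h3 α hα i z ha
      have a2 := h3' β hβ j z hb
      calc ‖k α i z‖ * ‖k' β j z‖ * ‖cx (D.ψ α) z‖ * ‖cx (D.ψ β) z‖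
          ≤ (B * B') * 1 * 1 := by
            apply mul_le_mul _ (hcut β z) (norm_nonneg _) (by positivity)
            apply mul_le_mul _ (hcut α z) (norm_nonneg _) (by positivity)
            exact mul_le_mul a1 a2 (norm_nonneg _) hB
        _ = B * B' := by ring
    · simp only [m, if_neg hr]
      simpa using mul_nonneg hB hB'
  have hm0 : ∀ i j α β z, m i j α β z ≠ 0 → R α β ∧ D.ψ α z ≠ 0 ∧ D.ψ β z ≠ 0 := by
    intro i j α β z hne
    by_cases hr : R α β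
    · refine ⟨hr, fun h0 => hne ?_, fun h0 => hne ?_⟩
      · simp only [m, if_pos hr, ContinuousMap.mul_apply, cx_apply, h0, Complex.ofReal_zero,
          mul_zero, zero_mul]
      · simp only [m, if_pos hr, ContinuousMap.mul_apply, cx_apply, h0, Complex.ofReal_zero,
          mul_zero]
    · exfalso
      apply hne
      simp only [m, if_neg hr, ContinuousMap.zero_apply]
  have hrow : ∀ i j, ∀ z, ∀ α ∈ D.s, ∑ β ∈ D.s, ‖m i j α β z‖ ≤ M := by
    intro i j z α hα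
    by_cases ha : D.ψ α z = 0
    · rw [Finset.sum_eq_zero]
      · exact hM0
      · intro β _
        rw [norm_eq_zero]
        by_contra hne
        exact (hm0 i j α β z hne).2.1 ha
    set t := D.s.filter (fun β => m i j α β z ≠ 0) with ht
    have e1 : ∑ β ∈ D.s, ‖m i j α β z‖ = ∑ β ∈ t, ‖m i j α β z‖ := by
      symm
      apply Finset.sum_filter_of_ne
      intro β _ hne h0
      exact hne (by rw [h0, norm_zero])
    rw [e1]
    have hcard : (t.card : ℝ) ≤ C * (δ * N) ^ 2 := by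
      refine D.loc z α hα ha δ hδ1 hδ2 t (Finset.filter_subset _ _) ?_
      intro β hβ
      obtain ⟨hr, -, hb⟩ := hm0 i j α β z (Finset.mem_filter.mp hβ).2
      exact ⟨hb, hR α β hr⟩
    calc ∑ β ∈ t, ‖m i j α β z‖ ≤ ∑ _β ∈ t, B * B' :=
          Finset.sum_le_sum fun β hβ => hmz i j α hα β (Finset.mem_filter.mp hβ).1 z
      _ = (t.card : ℝ) * (B * B') := by rw [Finset.sum_const, nsmul_eq_mul]
      _ ≤ (C * (δ * N) ^ 2) * (B * B') := mul_le_mul_of_nonneg_right hcard (by positivity)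
      _ = M := by rw [hM]; ring
  have hcol : ∀ i j, ∀ z, ∀ β ∈ D.s, ∑ α ∈ D.s, ‖m i j α β z‖ ≤ M := by
    intro i j z β hβ
    by_cases hb : D.ψ β z = 0
    · rw [Finset.sum_eq_zero]
      · exact hM0
      · intro α _
        rw [norm_eq_zero]
        by_contra hne
        exact (hm0 i j α β z hne).2.2 hb
    set t := D.s.filter (fun α => m i j α β z ≠ 0) with ht
    have e1 : ∑ α ∈ D.s, ‖m i j α β z‖ = ∑ α ∈ t, ‖m i j α β z‖ := by
      symm
      apply Finset.sum_filter_of_ne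
      intro α _ hne h0
      exact hne (by rw [h0, norm_zero])
    rw [e1]
    have hcard : (t.card : ℝ) ≤ C * (δ * N) ^ 2 := by
      refine D.loc z β hβ hb δ hδ1 hδ2 t (Finset.filter_subset _ _) ?_
      intro α hα
      obtain ⟨hr, ha, -⟩ := hm0 i j α β z (Finset.mem_filter.mp hα).2
      refine ⟨ha, fun i j => ?_⟩
      rw [norm_sub_rev]
      exact hR α β hr i j
    calc ∑ α ∈ t, ‖m i j α β z‖ ≤ ∑ _α ∈ t, B * B' :=
          Finset.sum_le_sum fun α hα => hmz i j α (Finset.mem_filter.mp hα).1 β hβ z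
      _ = (t.card : ℝ) * (B * B') := by rw [Finset.sum_const, nsmul_eq_mul]
      _ ≤ (C * (δ * N) ^ 2) * (B * B') := mul_le_mul_of_nonneg_right hcard (by positivity)
      _ = M := by rw [hM]; ring
  -- Bessel
  have hφ1 : ∀ α ∈ D.s, ∀ x, D.φ α x ≤ 1 := by
    intro α hα x
    rw [← D.φs x]
    exact Finset.single_le_sum (f := fun α => D.φ α x) (fun α _ => D.φ0 α x) hα
  have hbes : ∀ (g : C(X, ℂ)) (a : D.ι → C(X, ℂ)) (b : ℝ), 0 ≤ b →
      (∀ α ∈ D.s, ∀ x, D.φ α x ≠ 0 → ‖a α x‖ ≤ b) → ∀ x,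
      ∑ α ∈ D.s, ‖(cx (D.φ α) * (g * a α)) x‖ ^ 2 ≤ (‖g‖ * b) ^ 2 := by
    intro g a b hb ha x
    calc ∑ α ∈ D.s, ‖(cx (D.φ α) * (g * a α)) x‖ ^ 2
        ≤ ∑ α ∈ D.s, (‖g‖ * b) ^ 2 * D.φ α x := by
          apply Finset.sum_le_sum
          intro α hα
          have h0 := D.φ0 α x
          by_cases hx : D.φ α x = 0
          · simp [hx]
          have h3 : ‖(cx (D.φ α) * (g * a α)) x‖ ≤ (‖g‖ * b) * D.φ α x := by
            simp only [ContinuousMap.mul_apply, cx_apply, norm_mul, Complex.norm_real,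
              Real.norm_eq_abs, abs_of_nonneg h0]
            rw [mul_comm]
            apply mul_le_mul_of_nonneg_right _ h0
            exact mul_le_mul (ContinuousMap.norm_coe_le_norm g x) (ha α hα x hx)
              (norm_nonneg _) (norm_nonneg _)
          calc ‖(cx (D.φ α) * (g * a α)) x‖ ^ 2 ≤ ((‖g‖ * b) * D.φ α x) ^ 2 :=
                pow_le_pow_left₀ (norm_nonneg _) h3 2
            _ = (‖g‖ * b) ^ 2 * (D.φ α x * D.φ α x) := by ring
            _ ≤ (‖g‖ * b) ^ 2 * (D.φ α x * 1) := by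
                apply mul_le_mul_of_nonneg_left _ (sq_nonneg _)
                exact mul_le_mul_of_nonneg_left (hφ1 α hα x) h0
            _ = (‖g‖ * b) ^ 2 * D.φ α x := by ring
      _ = (‖g‖ * b) ^ 2 := by rw [← Finset.mul_sum, D.φs, mul_one]
  have hza : ∀ i, ∑ α ∈ D.s, ‖za i α‖ ^ 2 ≤ p * (‖f‖ * (B / N)) ^ 2 * ‖ζ‖ ^ 2 := by
    intro i
    apply hE.bes_le D.s (fun α => star (cx (D.φ α) * (f * h α i)))
    intro x
    have := hbes f (fun α => h α i) (B / N) (by positivity) (fun α hα x hx => by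
      simpa using h2 α hα i x hx) x
    simpa only [ContinuousMap.star_apply, norm_star] using this
  have heb : ∀ j, ∑ β ∈ D.s, ‖eb j β‖ ^ 2 ≤ p * (‖f'‖ * (B' / N)) ^ 2 * ‖ζ‖ ^ 2 := by
    intro j
    apply hE.bes_le D.s (fun β => cx (D.φ β) * (f' * h' β j))
    intro x
    exact hbes f' (fun β => h' β j) (B' / N) (by positivity) (fun β hβ x hx => by
      simpa using h2' β hβ j x hx) x
  -- conclusion
  have hswap : ∑ α ∈ D.s, ∑ β ∈ D.s, (if R α β then ∑ r, ∑ t, ⟪ζ, (E (cx (D.φ α) * (f * u r)) *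
        F (w r * w' t) * E (cx (D.φ β) * (f' * u' t))) ζ⟫_ℂ else 0) =
      ∑ i, ∑ j, ∑ α ∈ D.s, ∑ β ∈ D.s, ⟪za i α, F (m i j α β) (eb j β)⟫_ℂ := by
    calc _ = ∑ α ∈ D.s, ∑ β ∈ D.s, ∑ i, ∑ j, ⟪za i α, F (m i j α β) (eb j β)⟫_ℂ :=
          Finset.sum_congr rfl fun α hα => Finset.sum_congr rfl fun β hβ => hpair α hα β hβ
      _ = ∑ α ∈ D.s, ∑ i, ∑ β ∈ D.s, ∑ j, ⟪za i α, F (m i j α β) (eb j β)⟫_ℂ :=
          Finset.sum_congr rfl fun α _ => Finset.sum_comm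
      _ = ∑ i, ∑ α ∈ D.s, ∑ β ∈ D.s, ∑ j, ⟪za i α, F (m i j α β) (eb j β)⟫_ℂ := Finset.sum_comm
      _ = ∑ i, ∑ α ∈ D.s, ∑ j, ∑ β ∈ D.s, ⟪za i α, F (m i j α β) (eb j β)⟫_ℂ :=
          Finset.sum_congr rfl fun i _ => Finset.sum_congr rfl fun α _ => Finset.sum_comm
      _ = _ := Finset.sum_congr rfl fun i _ => Finset.sum_comm
  rw [hswap]
  refine (norm_sum_le _ _).trans ?_
  rw [Finset.sum_mul, Finset.sum_mul]
  refine Finset.sum_le_sum fun i _ => (norm_sum_le _ _).trans ?_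
  rw [Finset.sum_mul, Finset.sum_mul]
  refine Finset.sum_le_sum fun j _ => ?_
  refine (Vale.Agent.P092.H378.C.schur D.s D.s hF hq (m i j) hM0 (hrow i j) (hcol i j)
    (za i) (eb j)).trans ?_
  have g1 : Real.sqrt (∑ α ∈ D.s, ‖za i α‖ ^ 2) ≤ Real.sqrt p * (‖f‖ * (B / N)) * ‖ζ‖ := by
    rw [← Real.sqrt_sq (show (0 : ℝ) ≤ ‖f‖ * (B / N) by positivity),
      ← Real.sqrt_sq (norm_nonneg ζ), ← Real.sqrt_mul hp, ← Real.sqrt_mul (by positivity)]
    exact Real.sqrt_le_sqrt (hza i)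
  have g2 : Real.sqrt (∑ β ∈ D.s, ‖eb j β‖ ^ 2) ≤ Real.sqrt p * (‖f'‖ * (B' / N)) * ‖ζ‖ := by
    rw [← Real.sqrt_sq (show (0 : ℝ) ≤ ‖f'‖ * (B' / N) by positivity),
      ← Real.sqrt_sq (norm_nonneg ζ), ← Real.sqrt_mul hp, ← Real.sqrt_mul (by positivity)]
    exact Real.sqrt_le_sqrt (heb j)
  have g3 : Real.sqrt p * Real.sqrt p = p := Real.mul_self_sqrt hp
  calc 4 * (q * M * (Real.sqrt (∑ α ∈ D.s, ‖za i α‖ ^ 2) * Real.sqrt (∑ β ∈ D.s, ‖eb j β‖ ^ 2)))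
      ≤ 4 * (q * M * ((Real.sqrt p * (‖f‖ * (B / N)) * ‖ζ‖) *
          (Real.sqrt p * (‖f'‖ * (B' / N)) * ‖ζ‖))) := by
        gcongr
    _ = 4 * (q * M * ((Real.sqrt p * Real.sqrt p) * (‖f‖ * (B / N)) * (‖f'‖ * (B' / N)) *
          ‖ζ‖ ^ 2)) := by ring
    _ = 4 * (q * (B * B' * C) * (p * (‖f‖ * B) * (‖f'‖ * B'))) * δ ^ 2 * ‖ζ‖ ^ 2 := by
        rw [g3, hM]
        exact fin_id q B B' C p ‖f‖ ‖f'‖ δ ‖ζ‖ N hNpos

end Vale.Agent.P092.H283.Car
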