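import Vale.Agent.P092.H283.Car5

/-! # Track C, cells, part 6: the killed ideal for three letters -/

set_option linter.unusedSectionVars false

namespace Vale.Agent.P092.H283.Car

open Matrix Finset Vale.Agent.P092.H283.Syn
open Vale.Agent.P092.H828.P (UL)

variable {n : ℕ} {X Z : Type*} [TopologicalSpace X] [CompactSpace X] [TopologicalSpace Z]
  [CompactSpace Z]
  {v : X → Fin n → ℂ} {Q : C(X, Matrix (Fin n) (Fin n) ℂ)}
  {P : C(Z, Matrix (Fin n) (Fin n) ℂ)} {J : Matrix (Fin n) (Fin n) ℂ} {C : ℝ}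

/-- a function with an order is a finite tensor -/
theorem Ord.tensor {e : ℕ} {H : X → Z → ℂ} (hH : Ord v Q P J C e H) [Nonempty X]
    (hcell : ∃ N₀ : ℕ, ∀ N : ℕ, N₀ ≤ N → Nonempty (CD v Q P J C N)) :
    ∃ (d : ℕ) (h : Fin d → C(X, ℂ)) (k : Fin d → C(Z, ℂ)),
      ∀ x z, ∑ j, h j x * k j z = H x z := by
  obtain ⟨N₀, hcell⟩ := hcell
  obtain ⟨D⟩ := hcell (max N₀ 1) (le_max_left _ _)
  obtain ⟨d, B, hB, hH⟩ := hH
  obtain ⟨α, hα⟩ : D.s.Nonempty := by
    rw [Finset.nonempty_iff_ne_empty]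
    intro h0
    have := D.φs (Classical.arbitrary X)
    rw [h0] at this
    simp at this
  obtain ⟨h, k, h1, -, -⟩ := hH (max N₀ 1) (le_max_right _ _) D α hα
  exact ⟨d, h, k, fun x z => (h1 x z).symm⟩

/-- the killed ideal of functions of `(x, z, x')`: sums of (order two in `(x, z)`) times a function
of `x'` and of a function of `x` times (order two in `(x', z)`) -/
def KI (v : X → Fin n → ℂ) (Q : C(X, Matrix (Fin n) (Fin n) ℂ))
    (P : C(Z, Matrix (Fin n) (Fin n) ℂ)) (J : Matrix (Fin n) (Fin n) ℂ) (C : ℝ)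
    (G : X → Z → X → ℂ) : Prop :=
  ∃ (d : ℕ) (A A' : Fin d → X → Z → ℂ) (c c' : Fin d → C(X, ℂ)),
    (∀ s, Ord v Q P J C 2 (A s)) ∧ (∀ s, Ord v Q P J C 2 (A' s)) ∧
      ∀ x z x', G x z x' = ∑ s, (A s x z * c s x' + c' s x * A' s x' z)

namespace KI

variable {G G' : X → Z → X → ℂ}

theorem congr (h : KI v Q P J C G) (hG : ∀ x z x', G' x z x' = G x z x') : KI v Q P J C G' := by
  obtain ⟨d, A, A', c, c', h1, h2, h3⟩ := h
  exact ⟨d, A, A', c, c', h1, h2, fun x z x' => (hG x z x').trans (h3 x z x')⟩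

theorem of_l {A : X → Z → ℂ} (h : Ord v Q P J C 2 A) (c : C(X, ℂ)) :
    KI v Q P J C (fun x z x' => A x z * c x') :=
  ⟨1, fun _ => A, fun _ _ _ => 0, fun _ => c, fun _ => 0, fun _ => h, fun _ => Ord.zero,
    fun x z x' => by simp⟩

theorem of_r {A : X → Z → ℂ} (h : Ord v Q P J C 2 A) (c : C(X, ℂ)) :
    KI v Q P J C (fun x z x' => c x * A x' z) :=
  ⟨1, fun _ _ _ => 0, fun _ => A, fun _ => 0, fun _ => c, fun _ => Ord.zero, fun _ => h,
    fun x z x' => by simp⟩

theorem zero : KI v Q P J C (fun _ _ _ => 0) :=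
  ⟨0, Fin.elim0, Fin.elim0, Fin.elim0, Fin.elim0, fun s => s.elim0, fun s => s.elim0,
    fun x z x' => by simp⟩

theorem add (h : KI v Q P J C G) (h' : KI v Q P J C G') :
    KI v Q P J C (fun x z x' => G x z x' + G' x z x') := by
  obtain ⟨d, A, A', c, c', h1, h2, h3⟩ := h
  obtain ⟨e, B, B', b, b', k1, k2, k3⟩ := h'
  refine ⟨d + e, Fin.append A B, Fin.append A' B', Fin.append c b, Fin.append c' b', ?_, ?_, ?_⟩
  · intro s
    refine Fin.addCases (fun i => ?_) (fun i => ?_) s
    · rw [Fin.append_left]; exact h1 i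
    · rw [Fin.append_right]; exact k1 i
  · intro s
    refine Fin.addCases (fun i => ?_) (fun i => ?_) s
    · rw [Fin.append_left]; exact h2 i
    · rw [Fin.append_right]; exact k2 i
  · intro x z x'
    rw [Fin.sum_univ_add]
    simp only [Fin.append_left, Fin.append_right]
    rw [h3, k3]

theorem sum {τ : Type*} (t : Finset τ) {G : τ → X → Z → X → ℂ}
    (h : ∀ i ∈ t, KI v Q P J C (G i)) : KI v Q P J C (fun x z x' => ∑ i ∈ t, G i x z x') := by
  classical
  induction t using Finset.induction_on with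
  | empty => simpa using (zero (v := v) (Q := Q) (P := P) (J := J) (C := C))
  | insert a t ha ih =>
    have h1 := (h a (Finset.mem_insert_self a t)).add
      (ih fun i hi => h i (Finset.mem_insert_of_mem hi))
    exact h1.congr fun x z x' => Finset.sum_insert ha

/-- multiplication by functions of `x`, of `z` and of `x'` -/
theorem mulx (h : KI v Q P J C G) (a : C(X, ℂ)) (b : C(Z, ℂ)) (a' : C(X, ℂ)) :
    KI v Q P J C (fun x z x' => a x * b z * a' x' * G x z x') := by
  obtain ⟨d, A, A', c, c', h1, h2, h3⟩ := h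
  refine ⟨d, fun s x z => a x * b z * A s x z, fun s x z => a' x * b z * A' s x z,
    fun s => a' * c s, fun s => a * c' s, fun s => ?_, fun s => ?_, fun x z x' => ?_⟩
  · have := ((ord_x (v := v) (Q := Q) (P := P) (J := J) (C := C) a).mul (ord_z b)).mul (h1 s)
    exact this
  · have := ((ord_x (v := v) (Q := Q) (P := P) (J := J) (C := C) a').mul (ord_z b)).mul (h2 s)
    exact this
  · change a x * b z * a' x' * G x z x' = _
    rw [h3, Finset.mul_sum]
    refine Finset.sum_congr rfl fun s _ => ?_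
    simp only [ContinuousMap.mul_apply]
    ring

theorem neg (h : KI v Q P J C G) : KI v Q P J C (fun x z x' => -G x z x') :=
  (h.mulx (-1) 1 1).congr fun x z x' => by simp

theorem sub (h : KI v Q P J C G) (h' : KI v Q P J C G') :
    KI v Q P J C (fun x z x' => G x z x' - G' x z x') :=
  (h.add h'.neg).congr fun x z x' => sub_eq_add_neg _ _

theorem smul (h : KI v Q P J C G) (r : ℂ) : KI v Q P J C (fun x z x' => r * G x z x') :=
  (h.mulx (ContinuousMap.const X r) 1 1).congr fun x z x' => by simp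

end KI

/-- a finite tensor in three variables -/
def FT (T : X → Z → X → ℂ) : Prop :=
  ∃ (d : ℕ) (u : Fin d → C(X, ℂ)) (w : Fin d → C(Z, ℂ)) (u' : Fin d → C(X, ℂ)),
    ∀ x z x', T x z x' = ∑ r, u r x * w r z * u' r x'

/-- **the killed functions are an ideal of the finite tensors** -/
theorem KI.mul_ft {T G : X → Z → X → ℂ} (hT : FT T) (h : KI v Q P J C G) :
    KI v Q P J C (fun x z x' => T x z x' * G x z x') := by
  obtain ⟨d, u, w, u', hT⟩ := hT
  refine (KI.sum Finset.univ (G := fun r x z x' => u r x * w r z * u' r x' * G x z x')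
    fun r _ => h.mulx (u r) (w r) (u' r)).congr fun x z x' => ?_
  rw [hT, Finset.sum_mul]

namespace FT

variable {T T' : X → Z → X → ℂ}

theorem of (ρ : Type*) [Fintype ρ] (u : ρ → C(X, ℂ)) (w : ρ → C(Z, ℂ)) (u' : ρ → C(X, ℂ))
    (h : ∀ x z x', T x z x' = ∑ r, u r x * w r z * u' r x') : FT T := by
  let E := (Fintype.equivFin ρ).symm
  refine ⟨Fintype.card ρ, fun j => u (E j), fun j => w (E j), fun j => u' (E j),
    fun x z x' => ?_⟩
  rw [h x z x']
  exact (Equiv.sum_comp E (fun j => u j x * w j z * u' j x')).symm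

theorem congr (h : FT T) (hT : ∀ x z x', T' x z x' = T x z x') : FT T' := by
  obtain ⟨d, u, w, u', h⟩ := h
  exact ⟨d, u, w, u', fun x z x' => (hT x z x').trans (h x z x')⟩

theorem one3 (a : C(X, ℂ)) (b : C(Z, ℂ)) (a' : C(X, ℂ)) :
    FT (fun x z x' => a x * b z * a' x') :=
  of Unit (fun _ => a) (fun _ => b) (fun _ => a') fun x z x' => by simp

theorem fx (a : C(X, ℂ)) : FT (fun x (_ : Z) _ => a x) :=
  (one3 a 1 1).congr fun x z x' => by simp

theorem fz (b : C(Z, ℂ)) : FT (fun (_ : X) z _ => b z) :=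
  (one3 1 b 1).congr fun x z x' => by simp

theorem fx' (a : C(X, ℂ)) : FT (fun _ (_ : Z) x' => a x') :=
  (one3 1 1 a).congr fun x z x' => by simp

theorem add (h : FT T) (h' : FT T') : FT (fun x z x' => T x z x' + T' x z x') := by
  obtain ⟨d, u, w, u', h⟩ := h
  obtain ⟨e, a, b, a', h'⟩ := h'
  refine of (Fin d ⊕ Fin e) (Sum.elim u a) (Sum.elim w b) (Sum.elim u' a') fun x z x' => ?_
  rw [Fintype.sum_sum_type]
  simp only [Sum.elim_inl, Sum.elim_inr]
  rw [h, h']

theorem mul (h : FT T) (h' : FT T') : FT (fun x z x' => T x z x' * T' x z x') := by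
  obtain ⟨d, u, w, u', h⟩ := h
  obtain ⟨e, a, b, a', h'⟩ := h'
  refine of (Fin d × Fin e) (fun r => u r.1 * a r.2) (fun r => w r.1 * b r.2)
    (fun r => u' r.1 * a' r.2) fun x z x' => ?_
  rw [h, h', Finset.sum_mul_sum, Fintype.sum_prod_type]
  refine Finset.sum_congr rfl fun i _ => Finset.sum_congr rfl fun j _ => ?_
  simp only [ContinuousMap.mul_apply]
  ring

theorem zero : FT (fun (_ : X) (_ : Z) (_ : X) => 0) :=
  (fx (0 : C(X, ℂ))).congr fun x z x' => rfl

theorem sum {τ : Type*} (t : Finset τ) {G : τ → X → Z → X → ℂ}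
    (h : ∀ i ∈ t, FT (G i)) : FT (fun x z x' => ∑ i ∈ t, G i x z x') := by
  classical
  induction t using Finset.induction_on with
  | empty => simpa using (zero (X := X) (Z := Z))
  | insert a t ha ih =>
    have h1 := add (h a (Finset.mem_insert_self a t))
      (ih fun i hi => h i (Finset.mem_insert_of_mem hi))
    exact congr h1 fun x z x' => Finset.sum_insert ha

end FT

section kill3

variable {K : Type*} [NormedAddCommGroup K] [InnerProductSpace ℂ K] [CompleteSpace K]
  {E E' : C(X, ℂ) →ₗ[ℂ] (K →L[ℂ] K)} {F : C(Z, ℂ) →ₗ[ℂ] (K →L[ℂ] K)} {p p' q : ℝ}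

/-- **the killed ideal is killed** -/
theorem KI.kill (hp : 0 ≤ p) (hp' : 0 ≤ p') (hq : 0 ≤ q) (hE : UL E p) (hE' : UL E' p')
    (hF : UL F q) (hC : 0 ≤ C)
    (hcell : ∃ N₀ : ℕ, ∀ N : ℕ, N₀ ≤ N → Nonempty (CD v Q P J C N))
    (hI : ∀ (f : C(X, ℂ)) (g : C(Z, ℂ)),
      (∀ x ∈ tsupport f, ∀ z ∈ tsupport g, P z * Q x ≠ Q x) → E f * F g = 0)
    (hI' : ∀ (f : C(X, ℂ)) (g : C(Z, ℂ)),
      (∀ x ∈ tsupport f, ∀ z ∈ tsupport g, P z * Q x ≠ Q x) → E' f * F g = 0)
    {G : X → Z → X → ℂ} (hG : KI v Q P J C G)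
    {ρ : Type*} [Fintype ρ] (u : ρ → C(X, ℂ)) (w : ρ → C(Z, ℂ)) (u' : ρ → C(X, ℂ))
    (hu : ∀ x z x', ∑ r, u r x * w r z * u' r x' = G x z x') :
    ∑ r, E (u r) * F (w r) * E' (u' r) = 0 := by
  rcases isEmpty_or_nonempty X with hX | hX
  · apply Finset.sum_eq_zero
    intro r _
    have : u r = 0 := by ext x; exact hX.elim x
    rw [this, map_zero, zero_mul, zero_mul]
  obtain ⟨d, A, A', c, c', h1, h2, h3⟩ := hG
  choose m h k hk using fun s => (h1 s).tensor hcell
  choose m' h' k' hk' using fun s => (h2 s).tensor hcell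
  have key := op_eq3 E F E' u w u'
    (Sum.elim (fun y : (s : Fin d) × Fin (m s) => h y.1 y.2)
      (fun y : (s : Fin d) × Fin (m' s) => c' y.1))
    (Sum.elim (fun y : (s : Fin d) × Fin (m s) => k y.1 y.2)
      (fun y : (s : Fin d) × Fin (m' s) => k' y.1 y.2))
    (Sum.elim (fun y : (s : Fin d) × Fin (m s) => c y.1)
      (fun y : (s : Fin d) × Fin (m' s) => h' y.1 y.2)) (by
    intro x z x'
    rw [hu, h3, Fintype.sum_sum_type, Finset.sum_add_distrib]
    simp only [Sum.elim_inl, Sum.elim_inr]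
    rw [Fintype.sum_sigma, Fintype.sum_sigma]
    congr 1
    · refine Finset.sum_congr rfl fun s _ => ?_
      rw [← hk s x z, Finset.sum_mul]
    · refine Finset.sum_congr rfl fun s _ => ?_
      rw [← hk' s x' z, Finset.mul_sum]
      exact Finset.sum_congr rfl fun j _ => by ring)
  rw [key, Fintype.sum_sum_type]
  simp only [Sum.elim_inl, Sum.elim_inr]
  rw [Fintype.sum_sigma, Fintype.sum_sigma]
  have e1 : ∀ s, ∑ j, E (h s j) * F (k s j) = 0 := fun s =>
    Ord.kill hp hq hE hF hC hcell hI (h1 s) (h s) (k s) (hk s)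
  have e2 : ∀ s, ∑ j, F (k' s j) * E' (h' s j) = 0 := by
    intro s
    have e3 := Ord.kill hp' hq hE' hF hC hcell hI' (h2 s).conj (fun j => star (h' s j))
      (fun j => star (k' s j)) (by
        intro x z
        rw [← hk' s x z, star_sum]
        refine Finset.sum_congr rfl fun j _ => ?_
        rw [ContinuousMap.star_apply, ContinuousMap.star_apply, star_mul, mul_comm])
    have e4 := congrArg star e3
    rw [star_sum, star_zero] at e4
    rw [← e4]
    refine Finset.sum_congr rfl fun j _ => ?_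
    rw [star_mul, ← hE'.star, ← hF.star, star_star, star_star]
  have e5 : ∑ s, ∑ j, E (h s j) * F (k s j) * E' (c s) = 0 := by
    apply Finset.sum_eq_zero
    intro s _
    rw [← Finset.sum_mul, e1 s, zero_mul]
  have e6 : ∑ s, ∑ j, E (c' s) * F (k' s j) * E' (h' s j) = 0 := by
    apply Finset.sum_eq_zero
    intro s _
    simp only [mul_assoc]
    rw [← Finset.mul_sum, e2 s, mul_zero]
  rw [e5, e6, add_zero]

end kill3

end Vale.Agent.P092.H283.Car
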