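import Vale.Agent.P092.H378.C1

/-! # Track C, part 7: division off the diagonal -/

set_option linter.unusedSectionVars false

namespace Vale.Agent.P092.H283.Car

open Finset Vale.Agent.P092.H283.Syn
open Vale.Agent.P092.H378.C (crd val val_near)
open Vale.Agent.P092.H828.P (co co_apply)

variable {X V : Type*} [TopologicalSpace X] [CompactSpace X] [NormedAddCommGroup V]
  [NormedSpace ℂ V]

/-- clamp of a complex number -/
noncomputable def clp (r : ℝ) (c : ℂ) : ℂ :=
  ((max (-r) (min r c.re) : ℝ) : ℂ) + ((max (-r) (min r c.im) : ℝ) : ℂ) * Complex.I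

theorem clp_cont (r : ℝ) : Continuous (clp r) := by
  unfold clp
  fun_prop

theorem clp_eq {r : ℝ} {c : ℂ} (h : ‖c‖ ≤ r) : clp r c = c := by
  have h1 := abs_le.mp ((Complex.abs_re_le_norm c).trans h)
  have h2 := abs_le.mp ((Complex.abs_im_le_norm c).trans h)
  unfold clp
  rw [min_eq_right h1.2, min_eq_right h2.2, max_eq_right h1.1, max_eq_right h2.1]
  exact Complex.re_add_im c

theorem clp_le {r : ℝ} (hr : 0 ≤ r) (c : ℂ) : ‖clp r c‖ ≤ 2 * r := by
  have h1 : |max (-r) (min r c.re)| ≤ r :=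
    abs_le.mpr ⟨le_max_left _ _, max_le (by linarith) (min_le_left _ _)⟩
  have h2 : |max (-r) (min r c.im)| ≤ r :=
    abs_le.mpr ⟨le_max_left _ _, max_le (by linarith) (min_le_left _ _)⟩
  unfold clp
  refine (norm_add_le _ _).trans ?_
  rw [norm_mul, Complex.norm_I, mul_one, Complex.norm_real, Complex.norm_real, Real.norm_eq_abs,
    Real.norm_eq_abs]
  linarith

/-- local version: two functions with small oscillation of `a`, `b` on their supports -/
theorem div_loc {τ : Type} [Fintype τ] (a b : τ → C(X, ℂ))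
    (B : C(X, ℂ) →ₗ[ℂ] C(X, ℂ) →ₗ[ℂ] V) {M : ℝ} (hM : 0 ≤ M)
    (hB : ∀ u u', ‖B u u'‖ ≤ M * ‖u‖ * ‖u'‖)
    (u u' : C(X, ℂ))
    (h : ∀ g g', B (u * g) (u' * g') = ∑ i, B (u * g * a i) (u' * g' * b i))
    (x₀ x₀' : X) {r A : ℝ} (hr : 0 ≤ r) (hA : ∀ i, ‖a i‖ ≤ A ∧ ‖b i‖ ≤ A)
    (ha : ∀ x, u x ≠ 0 → ∀ i, ‖a i x - a i x₀‖ ≤ r)
    (hb : ∀ x, u' x ≠ 0 → ∀ i, ‖b i x - b i x₀'‖ ≤ r)
    (hc : Fintype.card τ * (2 * (2 * r * A)) < ‖1 - ∑ i, a i x₀ * b i x₀'‖) :
    B u u' = 0 := by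
  set c := ‖1 - ∑ i, a i x₀ * b i x₀'‖ with hcdef
  set κ := Fintype.card τ * (2 * (2 * r * A)) with hκ
  have hA0 : ∀ i : τ, 0 ≤ A := fun i => (norm_nonneg _).trans (hA i).1
  have hκ0 : 0 ≤ κ := by
    rw [hκ]
    rcases isEmpty_or_nonempty τ with hτ | ⟨⟨i⟩⟩
    · simp
    · have := hA0 i
      positivity
  have hc0 : 0 < c := lt_of_le_of_lt hκ0 hc
  -- the iteration
  have step : ∀ s : ℝ, 0 ≤ s → (∀ g g', ‖B (u * g) (u' * g')‖ ≤ s * ‖g‖ * ‖g'‖) →
      ∀ g g', ‖B (u * g) (u' * g')‖ ≤ (κ / c * s) * ‖g‖ * ‖g'‖ := by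
    intro s hs hsB g g'
    let ca : τ → C(X, ℂ) := fun i => ⟨fun x => clp r (a i x - a i x₀), (clp_cont r).comp
      (by fun_prop)⟩
    let cb : τ → C(X, ℂ) := fun i => ⟨fun x => clp r (b i x - b i x₀'), (clp_cont r).comp
      (by fun_prop)⟩
    have hca : ∀ i, ‖ca i‖ ≤ 2 * r := fun i =>
      (ContinuousMap.norm_le _ (by positivity)).mpr fun x => clp_le hr _
    have hcb : ∀ i, ‖cb i‖ ≤ 2 * r := fun i =>
      (ContinuousMap.norm_le _ (by positivity)).mpr fun x => clp_le hr _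
    have e1 : ∀ i, u * g * a i = u * (g * ca i) + a i x₀ • (u * g) := by
      intro i
      ext x
      simp only [ContinuousMap.mul_apply, ContinuousMap.add_apply, ContinuousMap.smul_apply,
        smul_eq_mul, ca, ContinuousMap.coe_mk]
      by_cases hx : u x = 0
      · rw [hx]; ring
      · rw [clp_eq (ha x hx i)]; ring
    have e2 : ∀ i, u' * g' * b i = u' * (g' * cb i) + b i x₀' • (u' * g') := by
      intro i
      ext x
      simp only [ContinuousMap.mul_apply, ContinuousMap.add_apply, ContinuousMap.smul_apply,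
        smul_eq_mul, cb, ContinuousMap.coe_mk]
      by_cases hx : u' x = 0
      · rw [hx]; ring
      · rw [clp_eq (hb x hx i)]; ring
    have e3 : (1 - ∑ i, a i x₀ * b i x₀') • B (u * g) (u' * g') =
        ∑ i, (B (u * (g * ca i)) (u' * (g' * b i)) + a i x₀ • B (u * g) (u' * (g' * cb i))) := by
      have h1 := h g g'
      have h2 : ∀ i, B (u * g * a i) (u' * g' * b i) =
          (B (u * (g * ca i)) (u' * (g' * b i)) + a i x₀ • B (u * g) (u' * (g' * cb i))) +
            (a i x₀ * b i x₀') • B (u * g) (u' * g') := by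
        intro i
        rw [e1 i, map_add, LinearMap.add_apply, map_smul, LinearMap.smul_apply]
        conv_lhs => rw [e2 i]
        have e4 : u' * (g' * b i) = u' * (g' * cb i) + b i x₀' • (u' * g') := by
          rw [← mul_assoc]; exact e2 i
        rw [e4]
        simp only [map_add, map_smul, smul_add, smul_smul]
        abel
      rw [Finset.sum_congr rfl (fun i _ => h2 i), Finset.sum_add_distrib, ← Finset.sum_smul] at h1
      rw [sub_smul, one_smul]
      rw [sub_eq_iff_eq_add]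
      exact h1
    have e4 : c * ‖B (u * g) (u' * g')‖ ≤ κ * s * ‖g‖ * ‖g'‖ := by
      rw [hcdef, ← norm_smul, e3]
      refine (norm_sum_le _ _).trans ?_
      have e5 : ∀ i ∈ (univ : Finset τ), ‖B (u * (g * ca i)) (u' * (g' * b i)) +
          a i x₀ • B (u * g) (u' * (g' * cb i))‖ ≤ 2 * (2 * r * A) * s * ‖g‖ * ‖g'‖ := by
        intro i _
        have hAi := hA0 i
        have f1 : ‖B (u * (g * ca i)) (u' * (g' * b i))‖ ≤ s * (‖g‖ * (2 * r)) * (‖g'‖ * A) := by
          refine (hsB _ _).trans ?_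
          have n1 : ‖g * ca i‖ ≤ ‖g‖ * (2 * r) :=
            (norm_mul_le _ _).trans (mul_le_mul_of_nonneg_left (hca i) (norm_nonneg _))
          have n2 : ‖g' * b i‖ ≤ ‖g'‖ * A :=
            (norm_mul_le _ _).trans (mul_le_mul_of_nonneg_left (hA i).2 (norm_nonneg _))
          gcongr
        have f2 : ‖a i x₀ • B (u * g) (u' * (g' * cb i))‖ ≤ A * (s * ‖g‖ * (‖g'‖ * (2 * r))) := by
          rw [norm_smul]
          have n1 : ‖g' * cb i‖ ≤ ‖g'‖ * (2 * r) :=
            (norm_mul_le _ _).trans (mul_le_mul_of_nonneg_left (hcb i) (norm_nonneg _))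
          have n2 : ‖a i x₀‖ ≤ A := ((a i).norm_coe_le_norm x₀).trans (hA i).1
          have n3 : ‖B (u * g) (u' * (g' * cb i))‖ ≤ s * ‖g‖ * (‖g'‖ * (2 * r)) :=
            (hsB _ _).trans (mul_le_mul_of_nonneg_left n1 (by positivity))
          exact mul_le_mul n2 n3 (norm_nonneg _) hAi
        refine (norm_add_le _ _).trans ((add_le_add f1 f2).trans (le_of_eq (by ring)))
      refine (Finset.sum_le_sum e5).trans (le_of_eq ?_)
      rw [Finset.sum_const, nsmul_eq_mul, hκ, Finset.card_univ]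
      ring
    have e6 : ‖B (u * g) (u' * g')‖ ≤ (κ * s * ‖g‖ * ‖g'‖) / c := by
      rw [le_div_iff₀ hc0, mul_comm]
      exact e4
    refine e6.trans (le_of_eq (by ring))
  have iter : ∀ k : ℕ, ∀ g g', ‖B (u * g) (u' * g')‖ ≤
      ((κ / c) ^ k * (M * ‖u‖ * ‖u'‖)) * ‖g‖ * ‖g'‖ := by
    intro k
    induction k with
    | zero =>
      intro g g'
      rw [pow_zero, one_mul]
      refine (hB _ _).trans ?_
      have n1 := norm_mul_le u g
      have n2 := norm_mul_le u' g'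
      calc M * ‖u * g‖ * ‖u' * g'‖ ≤ M * (‖u‖ * ‖g‖) * (‖u'‖ * ‖g'‖) := by gcongr
        _ = _ := by ring
    | succ k ih =>
      intro g g'
      have := step _ (by positivity) ih g g'
      refine this.trans (le_of_eq ?_)
      rw [pow_succ]
      ring
  have hlt : κ / c < 1 := by rw [div_lt_one hc0]; exact hc
  have hlim : Filter.Tendsto (fun k : ℕ => ((κ / c) ^ k * (M * ‖u‖ * ‖u'‖)) * ‖(1 : C(X, ℂ))‖ *
      ‖(1 : C(X, ℂ))‖) Filter.atTop (nhds 0) := by
    have := (((tendsto_pow_atTop_nhds_zero_of_lt_one (by positivity) hlt).mul_const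
      (M * ‖u‖ * ‖u'‖)).mul_const ‖(1 : C(X, ℂ))‖).mul_const ‖(1 : C(X, ℂ))‖
    simpa using this
  have hle : ‖B u u'‖ ≤ 0 := by
    apply ge_of_tendsto' hlim
    intro k
    have := iter k 1 1
    simpa using this
  exact norm_le_zero_iff.mp hle

/-- the lower bound of `|1 - t|` -/
theorem low {τ : Type} [Fintype τ] (a b : τ → C(X, ℂ))
    (ht : ∀ x x', x ≠ x' → ∑ i, a i x * b i x' ≠ 1)
    (u u' : C(X, ℂ)) (hd : Disjoint (tsupport u) (tsupport u')) :
    ∃ c : ℝ, 0 < c ∧ ∀ x ∈ tsupport u, ∀ x' ∈ tsupport u',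
      c ≤ ‖1 - ∑ i, a i x * b i x'‖ := by
  let F : X × X → ℝ := fun q => ‖1 - ∑ i, a i q.1 * b i q.2‖
  have hF : Continuous F := by
    change Continuous fun q : X × X => ‖1 - ∑ i, a i q.1 * b i q.2‖
    fun_prop
  rcases (tsupport u ×ˢ tsupport u').eq_empty_or_nonempty with h0 | h0
  · refine ⟨1, one_pos, fun x hx x' hx' => ?_⟩
    have : (x, x') ∈ tsupport u ×ˢ tsupport u' := ⟨hx, hx'⟩
    rw [h0] at this
    exact this.elim
  · have hK : IsCompact (tsupport u ×ˢ tsupport u') :=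
      (isClosed_tsupport _).isCompact.prod (isClosed_tsupport _).isCompact
    obtain ⟨y, hy, hmin⟩ := hK.exists_isMinOn h0 hF.continuousOn
    have hne : y.1 ≠ y.2 := by
      intro h1
      have h2 : y.2 ∈ tsupport u := h1 ▸ hy.1
      exact Set.disjoint_left.mp hd h2 hy.2
    refine ⟨F y, ?_, fun x hx x' hx' => ?_⟩
    · change 0 < ‖1 - ∑ i, a i y.1 * b i y.2‖
      rw [norm_pos_iff]
      intro h1
      exact ht y.1 y.2 hne (by linear_combination -h1)
    · have h3 := (isMinOn_iff.mp hmin) (x, x') ⟨hx, hx'⟩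
      exact h3

/-- **division off the diagonal** -/
theorem div {τ : Type} [Fintype τ] (a b : τ → C(X, ℂ))
    (ht : ∀ x x', x ≠ x' → ∑ i, a i x * b i x' ≠ 1)
    (B : C(X, ℂ) →ₗ[ℂ] C(X, ℂ) →ₗ[ℂ] V) {M : ℝ} (hM : 0 ≤ M)
    (hB : ∀ u u', ‖B u u'‖ ≤ M * ‖u‖ * ‖u'‖)
    (h : ∀ u u' : C(X, ℂ), Disjoint (tsupport u) (tsupport u') →
      B u u' = ∑ i, B (u * a i) (u' * b i))
    (u u' : C(X, ℂ)) (hd : Disjoint (tsupport u) (tsupport u')) : B u u' = 0 := by
  classical
  rcases isEmpty_or_nonempty τ with hτ | hτ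
  · rw [h u u' hd]; simp
  obtain ⟨c, hc0, hc⟩ := low a b ht u u' hd
  -- bounds
  set w : τ ⊕ τ → C(X, ℂ) := Sum.elim a b with hw
  obtain ⟨A, hA0, hA⟩ : ∃ A : ℝ, 0 < A ∧ ∀ i, ‖w i‖ ≤ A := by
    refine ⟨1 + ∑ i, ‖w i‖, by positivity, fun i => ?_⟩
    have := Finset.single_le_sum (f := fun i => ‖w i‖) (fun i _ => norm_nonneg _)
      (Finset.mem_univ i)
    linarith
  have hwA : ∀ i x, ‖w i x‖ ≤ A := fun i x => ((w i).norm_coe_le_norm x).trans (hA i)
  -- the mesh
  obtain ⟨N, hN0, hN⟩ : ∃ N : ℕ, 0 < N ∧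
      (Fintype.card τ : ℝ) * (2 * (2 * (4 * A / N) * A)) < c := by
    obtain ⟨N, hN⟩ := exists_nat_gt ((Fintype.card τ : ℝ) * (2 * (2 * (4 * A) * A)) / c)
    have hN1 : (0 : ℝ) < N := lt_of_le_of_lt (by positivity) hN
    refine ⟨N, by exact_mod_cast hN1, ?_⟩
    rw [div_lt_iff₀ hc0] at hN
    have : (Fintype.card τ : ℝ) * (2 * (2 * (4 * A / N) * A)) =
        ((Fintype.card τ : ℝ) * (2 * (2 * (4 * A) * A))) / N := by
      field_simp
    rw [this, div_lt_iff₀ hN1]
    linarith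
  have hNpos : (0 : ℝ) < N := by exact_mod_cast hN0
  have hsum : ∀ x, ∑ α ∈ cells N, cell N (crd A w) α x = 1 := by
    intro x
    refine sum_cell N (crd A w) ?_ x
    intro y z
    rcases y with ⟨i, bb⟩
    have h3 := hwA i z
    cases bb
    · simp only [crd, ContinuousMap.coe_mk, Bool.false_eq_true, if_false]
      rw [abs_div, abs_of_pos hA0, div_le_one hA0]
      exact (Complex.abs_re_le_norm _).trans h3
    · simp only [crd, ContinuousMap.coe_mk, if_true]
      rw [abs_div, abs_of_pos hA0, div_le_one hA0]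
      exact (Complex.abs_im_le_norm _).trans h3
  let φ : ((τ ⊕ τ) × Bool → ℤ) → C(X, ℂ) := fun α => co (cell N (crd A w) α)
  have hφ : ∑ α ∈ cells N, φ α = 1 := by
    ext x
    simp only [φ, ContinuousMap.coe_sum, Finset.sum_apply, co_apply, ContinuousMap.one_apply]
    rw [← Complex.ofReal_sum, hsum x, Complex.ofReal_one]
  have hdec : ∀ f : C(X, ℂ), f = ∑ α ∈ cells N, f * φ α := by
    intro f
    rw [← Finset.mul_sum, hφ, mul_one]
  have key : ∀ α β, B (u * φ α) (u' * φ β) = 0 := by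
    intro α β
    by_cases h1 : ∃ x, (u * φ α) x ≠ 0
    swap
    · push Not at h1
      have : u * φ α = 0 := by ext x; exact h1 x
      rw [this, map_zero, LinearMap.zero_apply]
    by_cases h2 : ∃ x, (u' * φ β) x ≠ 0
    swap
    · push Not at h2
      have : u' * φ β = 0 := by ext x; exact h2 x
      rw [this, map_zero]
    obtain ⟨x₀, hx₀⟩ := h1
    obtain ⟨x₀', hx₀'⟩ := h2
    have hu0 : u x₀ ≠ 0 := fun h0 => hx₀ (by rw [ContinuousMap.mul_apply, h0, zero_mul])
    have hu0' : u' x₀' ≠ 0 := fun h0 => hx₀' (by rw [ContinuousMap.mul_apply, h0, zero_mul])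
    have hcell : ∀ γ (f : C(X, ℂ)) x, (f * φ γ) x ≠ 0 → cell N (crd A w) γ x ≠ 0 := by
      intro γ f x hx h0
      apply hx
      simp only [φ, ContinuousMap.mul_apply, co_apply, h0, Complex.ofReal_zero, mul_zero]
    have hnear : ∀ γ (f : C(X, ℂ)) x y, (f * φ γ) x ≠ 0 → (f * φ γ) y ≠ 0 → ∀ i,
        ‖w i x - w i y‖ ≤ 4 * A / N := by
      intro γ f x y hx hy i
      have n1 := val_near hA0 hN0 w γ x (hcell γ f x hx) i
      have n2 := val_near hA0 hN0 w γ y (hcell γ f y hy) i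
      calc ‖w i x - w i y‖ = ‖(w i x - val A N γ i) - (w i y - val A N γ i)‖ := by
            congr 1; ring
        _ ≤ ‖w i x - val A N γ i‖ + ‖w i y - val A N γ i‖ := norm_sub_le _ _
        _ ≤ 2 * A / N + 2 * A / N := add_le_add n1 n2
        _ = 4 * A / N := by ring
    refine div_loc a b B hM hB (u * φ α) (u' * φ β) ?_ x₀ x₀' (r := 4 * A / N) (A := A)
      (by positivity) (fun i => ⟨hA (Sum.inl i), hA (Sum.inr i)⟩) ?_ ?_ ?_
    · intro g g'
      refine h _ _ ?_
      refine hd.mono ?_ ?_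
      · refine closure_mono ?_
        intro x hx h0
        apply hx
        simp [h0]
      · refine closure_mono ?_
        intro x hx h0
        apply hx
        simp [h0]
    · intro x hx i
      exact hnear α u x x₀ hx hx₀ (Sum.inl i)
    · intro x hx i
      exact hnear β u' x x₀' hx hx₀' (Sum.inr i)
    · exact lt_of_lt_of_le hN (hc x₀ (subset_tsupport _ hu0) x₀' (subset_tsupport _ hu0'))
  calc B u u' = B (∑ α ∈ cells N, u * φ α) (∑ β ∈ cells N, u' * φ β) := by
        rw [← hdec u, ← hdec u']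
    _ = ∑ α ∈ cells N, ∑ β ∈ cells N, B (u * φ α) (u' * φ β) := by
        rw [show B (∑ α ∈ cells N, u * φ α) = ∑ α ∈ cells N, B (u * φ α) from map_sum _ _ _,
          LinearMap.sum_apply]
        exact Finset.sum_congr rfl fun α _ => map_sum _ _ _
    _ = 0 := Finset.sum_eq_zero fun α _ => Finset.sum_eq_zero fun β _ => key α β

end Vale.Agent.P092.H283.Car
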