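import Mathlib

/-! # Track C, part 8: a projection of rank two containing two projections of rank one -/

set_option linter.unusedSectionVars false

namespace Vale.Agent.P092.H283.Car

open Finset Matrix

variable {R : Type*} [CommRing R] {n : Type*} [Fintype n] [DecidableEq n]

section sums

variable (f : n → n → n → n → R)

theorem sw_t3 : ∑ c, ∑ a, ∑ b, ∑ d, f a c b d = ∑ a, ∑ c, ∑ b, ∑ d, f a c b d := sum_comm

theorem sw_in : ∑ a, ∑ c, ∑ d, ∑ b, f a c b d = ∑ a, ∑ c, ∑ b, ∑ d, f a c b d :=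
  sum_congr rfl fun _ _ => sum_congr rfl fun _ _ => sum_comm

theorem sw_t4 : ∑ c, ∑ a, ∑ d, ∑ b, f a c b d = ∑ a, ∑ c, ∑ b, ∑ d, f a c b d := by
  rw [sum_comm]
  exact sw_in f

theorem sw_t2 : ∑ a, ∑ d, ∑ b, ∑ c, f a c b d = ∑ a, ∑ c, ∑ b, ∑ d, f a c b d := by
  refine sum_congr rfl fun a _ => ?_
  calc ∑ d, ∑ b, ∑ c, f a c b d = ∑ d, ∑ c, ∑ b, f a c b d :=
        sum_congr rfl fun _ _ => sum_comm
    _ = ∑ c, ∑ d, ∑ b, f a c b d := sum_comm
    _ = ∑ c, ∑ b, ∑ d, f a c b d := sum_congr rfl fun _ _ => sum_comm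

theorem sw_t5 : ∑ d, ∑ b, ∑ c, ∑ a, f a c b d = ∑ a, ∑ c, ∑ b, ∑ d, f a c b d := by
  calc ∑ d, ∑ b, ∑ c, ∑ a, f a c b d = ∑ d, ∑ b, ∑ a, ∑ c, f a c b d :=
        sum_congr rfl fun _ _ => sum_congr rfl fun _ _ => sum_comm
    _ = ∑ d, ∑ a, ∑ b, ∑ c, f a c b d := sum_congr rfl fun _ _ => sum_comm
    _ = ∑ a, ∑ d, ∑ b, ∑ c, f a c b d := sum_comm
    _ = _ := sw_t2 f

theorem sw_t6 : ∑ d, ∑ b, ∑ a, ∑ c, f a c b d = ∑ a, ∑ c, ∑ b, ∑ d, f a c b d := by
  calc ∑ d, ∑ b, ∑ a, ∑ c, f a c b d = ∑ d, ∑ a, ∑ b, ∑ c, f a c b d :=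
        sum_congr rfl fun _ _ => sum_comm
    _ = ∑ a, ∑ d, ∑ b, ∑ c, f a c b d := sum_comm
    _ = _ := sw_t2 f

end sums

/-- **the projection on the plane of two lines** -/
theorem q_id {q p p' : Matrix n n R}
    (minor : ∀ i c d a b j, q i j * (q c a * q d b - q c b * q d a) -
      q c j * (q i a * q d b - q i b * q d a) + q d j * (q i a * q c b - q i b * q c a) = 0)
    (h1 : q * p = p) (h2 : p * q = p) (h1' : q * p' = p') (h2' : p' * q = p')
    (ht : p.trace = 1) (ht' : p'.trace = 1) :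
    (1 - (p * p').trace) • q = p + p' - p * p' - p' * p := by
  ext i j
  have e1 : ∑ a, ∑ c, ∑ b, ∑ d, (p a c * q c a) * (p' b d * q d b) = 1 := by
    have h : (p * q).trace * (p' * q).trace = 1 := by rw [h2, h2', ht, ht', one_mul]
    rw [← h]
    simp only [trace, diag_apply, mul_apply, sum_mul]
    simp only [mul_sum]
  have e2 : ∑ a, ∑ c, ∑ b, ∑ d, p a c * q c b * p' b d * q d a = (p * p').trace := by
    have h : (p * q * p' * q).trace = (p * p').trace := by
      rw [h2, mul_assoc, h2']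
    rw [← h, ← sw_t2]
    simp only [trace, diag_apply, mul_apply, sum_mul]
  have e3 : ∑ a, ∑ c, ∑ b, ∑ d, (q i a * p a c * q c j) * (p' b d * q d b) = p i j := by
    have h : (q * p * q) i j * (p' * q).trace = p i j := by rw [h1, h2, h2', ht', mul_one]
    rw [← h, ← sw_t3]
    simp only [trace, diag_apply, mul_apply, sum_mul]
    simp only [mul_sum]
  have e4 : ∑ a, ∑ c, ∑ b, ∑ d, q i b * p' b d * q d a * p a c * q c j = (p' * p) i j := by
    have h : (q * p' * q * p * q) i j = (p' * p) i j := by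
      rw [h1', h2', mul_assoc, h2]
    rw [← h, ← sw_t4]
    simp only [mul_apply, sum_mul]
  have e5 : ∑ a, ∑ c, ∑ b, ∑ d, q i a * p a c * q c b * p' b d * q d j = (p * p') i j := by
    have h : (q * p * q * p' * q) i j = (p * p') i j := by
      rw [h1, h2, mul_assoc, h2']
    rw [← h, ← sw_t5]
    simp only [mul_apply, sum_mul]
  have e6 : ∑ a, ∑ c, ∑ b, ∑ d, (q i b * p' b d * q d j) * (p a c * q c a) = p' i j := by
    have h : (q * p' * q) i j * (p * q).trace = p' i j := by rw [h1', h2', h2, ht, mul_one]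
    rw [← h, ← sw_t6]
    simp only [trace, diag_apply, mul_apply, sum_mul]
    simp only [mul_sum]
  have hsum : q i j * (∑ a, ∑ c, ∑ b, ∑ d, (p a c * q c a) * (p' b d * q d b)) -
      q i j * (∑ a, ∑ c, ∑ b, ∑ d, p a c * q c b * p' b d * q d a) -
      (∑ a, ∑ c, ∑ b, ∑ d, (q i a * p a c * q c j) * (p' b d * q d b)) +
      (∑ a, ∑ c, ∑ b, ∑ d, q i b * p' b d * q d a * p a c * q c j) +
      (∑ a, ∑ c, ∑ b, ∑ d, q i a * p a c * q c b * p' b d * q d j) -
      (∑ a, ∑ c, ∑ b, ∑ d, (q i b * p' b d * q d j) * (p a c * q c a)) = 0 := by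
    simp only [mul_sum, ← sum_add_distrib, ← sum_sub_distrib]
    refine sum_eq_zero fun a _ => sum_eq_zero fun c _ => sum_eq_zero fun b _ =>
      sum_eq_zero fun d _ => ?_
    linear_combination (p a c * p' b d) * minor i c d a b j
  rw [e1, e2, e3, e4, e5, e6] at hsum
  simp only [Matrix.smul_apply, smul_eq_mul, Matrix.sub_apply, Matrix.add_apply]
  linear_combination hsum

end Vale.Agent.P092.H283.Car
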