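import Vale.Agent.P092.H283.Car8
import Vale.Agent.P092.H378.C2

/-! # Track C, part 9: on the support of the symbol the Lagrangian is determined by the two points -/

set_option linter.unusedSectionVars false

namespace Vale.Agent.P092.H283.Car

open Finset Matrix
open Vale.Agent.P092.H378.C (Sy PtR LgR Inc2 rr hh hs e2 smul_hh rr_q)

variable {R : Type*} [CommRing R] {n : Type*} [Fintype n] [DecidableEq n]
  {J p q p' : Matrix n n R}

theorem hs_eq (hJ : Sy J) (hq : LgR J q) (p : Matrix n n R) :
    hs J p q = ((1 - q) * p) * q + ((1 - q) * J) * ((1 - q) * p)ᵀ * Jᵀ := by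
  rw [hs, mul_add, add_mul, mul_assoc (1 - q) (rr J p) q, rr_q hJ hq]
  simp only [mul_assoc]

theorem smul_hs (hJ : Sy J) (hq : LgR J q) {c : R} (hc : c • ((1 - q) * p) = 0) :
    c • hs J p q = 0 := by
  have h1 : c • ((1 - q) * p)ᵀ = 0 := by
    rw [← transpose_smul, hc, transpose_zero]
  rw [hs_eq hJ hq, smul_add, ← smul_mul_assoc, hc, zero_mul, zero_add, ← smul_mul_assoc,
    ← mul_smul_comm, h1, mul_zero, zero_mul]

theorem e2_kill_l (hJ : Sy J) (hq : LgR J q) {c : R} (hc : c • (p * (1 - q)) = 0) :
    c * e2 J p q p' = 0 := by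
  rw [e2, ← smul_eq_mul, ← trace_smul, ← smul_mul_assoc, smul_hh hJ hq hc, zero_mul, trace_zero]

theorem e2_kill_r (hJ : Sy J) (hq : LgR J q) {c : R} (hc : c • ((1 - q) * p') = 0) :
    c * e2 J p q p' = 0 := by
  rw [e2, ← smul_eq_mul, ← trace_smul, ← mul_smul_comm, smul_hs hJ hq hc, mul_zero, trace_zero]

/-- the symbol -/
def SS (J p q p' : Matrix n n R) : R := e2 J p q p' + e2 J p' q p

theorem SS_comm (J p q p' : Matrix n n R) : SS J p q p' = SS J p' q p := add_comm _ _

theorem SS_a (hJ : Sy J) (hq : LgR J q) (hi : Inc2 J p q) (p' : Matrix n n R) (k l : n) :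
    ((1 - q) * p) k l * SS J p q p' = 0 := by
  rw [SS, mul_add, e2_kill_l hJ hq, e2_kill_r hJ hq, add_zero]
  · ext i j
    rw [Matrix.smul_apply, smul_eq_mul, hi.aa]
    rfl
  · ext i j
    rw [Matrix.smul_apply, smul_eq_mul, hi.ab]
    rfl

theorem SS_b (hJ : Sy J) (hq : LgR J q) (hi : Inc2 J p q) (p' : Matrix n n R) (k l : n) :
    (p * (1 - q)) k l * SS J p q p' = 0 := by
  rw [SS, mul_add, e2_kill_l hJ hq, e2_kill_r hJ hq, add_zero]
  · ext i j
    rw [Matrix.smul_apply, smul_eq_mul, mul_comm, hi.ab]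
    rfl
  · ext i j
    rw [Matrix.smul_apply, smul_eq_mul, hi.bb]
    rfl

/-- the annihilator of an element -/
def ann (s : R) : Ideal R where
  carrier := {t | t * s = 0}
  add_mem' := by
    intro a b ha hb
    change (a + b) * s = 0
    rw [add_mul, ha, hb, add_zero]
  zero_mem' := zero_mul s
  smul_mem' := by
    intro c a ha
    change c * a * s = 0
    rw [mul_assoc, ha, mul_zero]

theorem mem_ann {s t : R} : t ∈ ann s ↔ t * s = 0 := Iff.rfl

/-- **the Lagrangian from the two points** -/
theorem q_SS (hJ : Sy J) (hp : PtR J p) (hp' : PtR J p') (hq : LgR J q)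
    (hi : Inc2 J p q) (hi' : Inc2 J p' q) (i j : n) :
    ((1 - (p * p').trace) * q i j - (p + p' - p * p' - p' * p) i j) * SS J p q p' = 0 := by
  set I := ann (SS J p q p') with hI
  let f : R →+* R ⧸ I := Ideal.Quotient.mk I
  have hmul : ∀ A B : Matrix n n R, (A * B).map f = A.map f * B.map f := fun A B => by
    exact Matrix.map_mul
  have h0 : ∀ A : Matrix n n R, (∀ k l, A k l * SS J p q p' = 0) → A.map f = 0 := by
    intro A hA
    ext k l
    exact Ideal.Quotient.eq_zero_iff_mem.mpr (hA k l)
  have hone : (1 : Matrix n n R).map f = 1 := by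
    ext k l
    rw [Matrix.map_apply, Matrix.one_apply, Matrix.one_apply]
    split_ifs <;> simp
  have hsub : ∀ A B : Matrix n n R, (A - B).map f = A.map f - B.map f := fun A B => by
    ext k l; simp
  have g1 : q.map f * p.map f = p.map f := by
    have h := h0 _ (SS_a hJ hq hi p')
    rw [hmul, hsub, hone, sub_mul, one_mul, sub_eq_zero] at h
    exact h.symm
  have g2 : p.map f * q.map f = p.map f := by
    have h := h0 _ (SS_b hJ hq hi p')
    rw [hmul, hsub, hone, mul_sub, mul_one, sub_eq_zero] at h
    exact h.symm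
  have g1' : q.map f * p'.map f = p'.map f := by
    have h := h0 ((1 - q) * p') (fun k l => by rw [SS_comm]; exact SS_a hJ hq hi' p k l)
    rw [hmul, hsub, hone, sub_mul, one_mul, sub_eq_zero] at h
    exact h.symm
  have g2' : p'.map f * q.map f = p'.map f := by
    have h := h0 (p' * (1 - q)) (fun k l => by rw [SS_comm]; exact SS_b hJ hq hi' p k l)
    rw [hmul, hsub, hone, mul_sub, mul_one, sub_eq_zero] at h
    exact h.symm
  have htr : ∀ A : Matrix n n R, (A.map f).trace = f A.trace := by
    intro A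
    simp [Matrix.trace]
  have key := q_id (q := q.map f) (p := p.map f) (p' := p'.map f)
    (fun i c d a b j => by
      have := congrArg f (hq.minor i c d a b j)
      simpa using this)
    g1 g2 g1' g2' (by rw [htr, hp.tr, map_one]) (by rw [htr, hp'.tr, map_one])
  have key2 := congrFun (congrFun key i) j
  have e1 : f ((1 - (p * p').trace) * q i j - (p + p' - p * p' - p' * p) i j) = 0 := by
    rw [← hmul, ← hmul, htr] at key2
    simp only [Matrix.smul_apply, Matrix.sub_apply, Matrix.add_apply, Matrix.map_apply,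
      smul_eq_mul] at key2
    simp only [Matrix.sub_apply, Matrix.add_apply, map_sub, map_add, map_mul, map_one]
    rw [key2, sub_self]
  exact (Ideal.Quotient.eq_zero_iff_mem.mp e1)

end Vale.Agent.P092.H283.Car
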