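import Vale.Agent.P092.H644.Gr3
import Vale.Agent.P092.H702.Cells

/-! # Real points and lines as orthogonal projections (continuous, injective, incidence) -/

set_option linter.unusedSectionVars false

namespace Vale.Agent.P092.H283.Geo

open Matrix Module Set Topology Projectivization
open scoped LinearAlgebra.Projectivization
open Vale.Agent.P092.H702 (Pt Ln)
open Vale.Agent.P092.H100.Gr (Gr Fr sp sp_surj sp_quot)
open Vale.Agent.P092.H820 (pj pj_oq)
open Vale.Agent.P092.H644.Gr3 (p1)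

variable {n : ℕ}

/-- `M` is the orthogonal projection on `L` -/
structure IsPr (L : Submodule ℝ (Fin n → ℝ)) (M : Matrix (Fin n) (Fin n) ℝ) : Prop where
  symm : Mᵀ = M
  fix : ∀ x ∈ L, M *ᵥ x = x
  mem : ∀ x, M *ᵥ x ∈ L

theorem IsPr.mem_iff {L : Submodule ℝ (Fin n → ℝ)} {M : Matrix (Fin n) (Fin n) ℝ} (h : IsPr L M)
    (x : Fin n → ℝ) : x ∈ L ↔ M *ᵥ x = x :=
  ⟨h.fix x, fun hx => hx ▸ h.mem x⟩

theorem mul_eq_of {L : Submodule ℝ (Fin n → ℝ)} {M N : Matrix (Fin n) (Fin n) ℝ}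
    (h : IsPr L M) (h' : ∀ x, N *ᵥ x ∈ L) : M * N = N := by
  apply Matrix.ext_of_mulVec_single
  intro i
  rw [← Matrix.mulVec_mulVec]
  exact h.fix _ (h' _)

theorem IsPr.unique {L : Submodule ℝ (Fin n → ℝ)} {M M' : Matrix (Fin n) (Fin n) ℝ}
    (h : IsPr L M) (h' : IsPr L M') : M = M' := by
  have h1 : M * M' = M' := mul_eq_of h h'.mem
  have h2 : M' * M = M := mul_eq_of h' h.mem
  have h3 := congrArg Matrix.transpose h1
  rw [Matrix.transpose_mul, h.symm, h'.symm] at h3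
  rw [← h2, h3]

/-- the projection on one vector -/
noncomputable def pr (v : Fin n → ℝ) : Matrix (Fin n) (Fin n) ℝ := (v ⬝ᵥ v)⁻¹ • vecMulVec v v

theorem dp_pos {v : Fin n → ℝ} (hv : v ≠ 0) : 0 < v ⬝ᵥ v := by
  refine lt_of_le_of_ne (Finset.sum_nonneg fun i _ => mul_self_nonneg _) fun h => hv ?_
  exact dotProduct_self_eq_zero.mp h.symm

theorem pr_mulVec (v x : Fin n → ℝ) : pr v *ᵥ x = ((v ⬝ᵥ x) / (v ⬝ᵥ v)) • v := by
  ext i
  simp only [pr, Matrix.mulVec, dotProduct, Matrix.smul_apply, vecMulVec_apply, smul_eq_mul,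
    Pi.smul_apply, Finset.sum_div, Finset.sum_mul]
  exact Finset.sum_congr rfl fun j _ => by ring

theorem pr_symm (v : Fin n → ℝ) : (pr v)ᵀ = pr v := by
  unfold pr
  rw [Matrix.transpose_smul]
  congr 1
  ext i j
  simp [vecMulVec_apply, mul_comm]

/-- normalised vector -/
noncomputable def nrm (v : Fin n → ℝ) : Fin n → ℝ := (Real.sqrt (v ⬝ᵥ v))⁻¹ • v

theorem nrm_unit {v : Fin n → ℝ} (hv : v ≠ 0) : nrm v ⬝ᵥ nrm v = 1 := by
  have h := dp_pos hv
  unfold nrm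
  rw [smul_dotProduct, dotProduct_smul, smul_eq_mul, smul_eq_mul, ← mul_assoc, ← mul_inv,
    Real.mul_self_sqrt h.le, inv_mul_cancel₀ h.ne']

theorem vmv_nrm {v : Fin n → ℝ} (hv : v ≠ 0) : pr v = vecMulVec (nrm v) (nrm v) := by
  have h := dp_pos hv
  ext i j
  simp only [pr, nrm, Matrix.smul_apply, vecMulVec_apply, smul_eq_mul, Pi.smul_apply]
  have : (v ⬝ᵥ v)⁻¹ = (Real.sqrt (v ⬝ᵥ v))⁻¹ * (Real.sqrt (v ⬝ᵥ v))⁻¹ := by
    rw [← mul_inv, Real.mul_self_sqrt h.le]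
  rw [this]
  ring

theorem pt_pr {v : Fin n → ℝ} (hv : v ≠ 0) : Pt (pr v) := ⟨nrm v, nrm_unit hv, vmv_nrm hv⟩

theorem isPr_pr {v : Fin n → ℝ} (hv : v ≠ 0) : IsPr (Submodule.span ℝ {v}) (pr v) where
  symm := pr_symm v
  fix := by
    intro x hx
    obtain ⟨a, rfl⟩ := Submodule.mem_span_singleton.mp hx
    rw [pr_mulVec, dotProduct_smul, smul_eq_mul, mul_div_assoc, div_self (dp_pos hv).ne', mul_one]
  mem := by
    intro x
    rw [pr_mulVec]
    exact Submodule.mem_span_singleton.mpr ⟨_, rfl⟩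

/-- the second Gram-Schmidt vector -/
noncomputable def ww (a b : Fin n → ℝ) : Fin n → ℝ := b - ((a ⬝ᵥ b) / (a ⬝ᵥ a)) • a

theorem ww_perp {a : Fin n → ℝ} (ha : a ≠ 0) (b : Fin n → ℝ) : a ⬝ᵥ ww a b = 0 := by
  unfold ww
  rw [dotProduct_sub, dotProduct_smul, smul_eq_mul, div_mul_cancel₀ _ (dp_pos ha).ne', sub_self]

theorem ww_ne {v : Fin 2 → Fin n → ℝ} (hv : LinearIndependent ℝ v) : ww (v 0) (v 1) ≠ 0 := by
  intro h
  have h1 := Fintype.linearIndependent_iff.mp hv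
    ![-((v 0 ⬝ᵥ v 1) / (v 0 ⬝ᵥ v 0)), 1] (by
      rw [Fin.sum_univ_two]
      simp only [Matrix.cons_val_zero, Matrix.cons_val_one, one_smul]
      unfold ww at h
      rw [neg_smul, neg_add_eq_sub]
      exact h) 1
  simp at h1

/-- the projection on a plane -/
noncomputable def pr2 (a b : Fin n → ℝ) : Matrix (Fin n) (Fin n) ℝ := pr a + pr (ww a b)

theorem ln_pr2 {v : Fin 2 → Fin n → ℝ} (hv : LinearIndependent ℝ v) : Ln (pr2 (v 0) (v 1)) := by
  have h0 : v 0 ≠ 0 := hv.ne_zero 0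
  have h1 := ww_ne hv
  refine ⟨nrm (v 0), nrm (ww (v 0) (v 1)), nrm_unit h0, nrm_unit h1, ?_, ?_⟩
  · unfold nrm
    rw [smul_dotProduct, dotProduct_smul, ww_perp h0]
    simp
  · rw [pr2, vmv_nrm h0, vmv_nrm h1]

theorem isPr_pr2 {v : Fin 2 → Fin n → ℝ} (hv : LinearIndependent ℝ v) :
    IsPr (Submodule.span ℝ (range v)) (pr2 (v 0) (v 1)) := by
  have h0 : v 0 ≠ 0 := hv.ne_zero 0
  have h1 := ww_ne hv
  have hp := ww_perp h0 (v 1)
  have hp' : ww (v 0) (v 1) ⬝ᵥ v 0 = 0 := by rw [dotProduct_comm]; exact hp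
  have f0 : pr2 (v 0) (v 1) *ᵥ v 0 = v 0 := by
    rw [pr2, Matrix.add_mulVec, pr_mulVec, pr_mulVec, hp', zero_div, zero_smul, add_zero,
      div_self (dp_pos h0).ne', one_smul]
  have fw : pr2 (v 0) (v 1) *ᵥ ww (v 0) (v 1) = ww (v 0) (v 1) := by
    rw [pr2, Matrix.add_mulVec, pr_mulVec, pr_mulVec, hp, zero_div, zero_smul, zero_add,
      div_self (dp_pos h1).ne', one_smul]
  have f1 : pr2 (v 0) (v 1) *ᵥ v 1 = v 1 := by
    have e : v 1 = ww (v 0) (v 1) + ((v 0 ⬝ᵥ v 1) / (v 0 ⬝ᵥ v 0)) • v 0 := by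
      unfold ww; rw [sub_add_cancel]
    calc pr2 (v 0) (v 1) *ᵥ v 1
        = pr2 (v 0) (v 1) *ᵥ (ww (v 0) (v 1) + ((v 0 ⬝ᵥ v 1) / (v 0 ⬝ᵥ v 0)) • v 0) := by
          rw [← e]
      _ = ww (v 0) (v 1) + ((v 0 ⬝ᵥ v 1) / (v 0 ⬝ᵥ v 0)) • v 0 := by
          rw [Matrix.mulVec_add, Matrix.mulVec_smul, f0, fw]
      _ = v 1 := e.symm
  constructor
  · rw [pr2, Matrix.transpose_add, pr_symm, pr_symm]
  · intro x hx
    induction hx using Submodule.span_induction with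
    | mem x hx =>
      obtain ⟨i, rfl⟩ := hx
      fin_cases i
      · exact f0
      · exact f1
    | zero => exact Matrix.mulVec_zero _
    | add x y _ _ hx hy => rw [Matrix.mulVec_add, hx, hy]
    | smul a x _ hx => rw [Matrix.mulVec_smul, hx]
  · intro x
    rw [pr2, Matrix.add_mulVec, pr_mulVec, pr_mulVec]
    have m0 : v 0 ∈ Submodule.span ℝ (range v) := Submodule.subset_span ⟨0, rfl⟩
    have m1 : v 1 ∈ Submodule.span ℝ (range v) := Submodule.subset_span ⟨1, rfl⟩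
    refine Submodule.add_mem _ (Submodule.smul_mem _ _ m0) (Submodule.smul_mem _ _ ?_)
    exact Submodule.sub_mem _ m1 (Submodule.smul_mem _ _ m0)

theorem vmv_cont {Y : Type*} [TopologicalSpace Y] {f : Y → Fin n → ℝ} (hf : Continuous f) :
    Continuous fun y => vecMulVec (f y) (f y) := by
  refine continuous_pi fun i => continuous_pi fun j => ?_
  simp only [vecMulVec_apply]
  exact ((continuous_apply i).comp hf).mul ((continuous_apply j).comp hf)

theorem dp_cont {Y : Type*} [TopologicalSpace Y] {f g : Y → Fin n → ℝ} (hf : Continuous f)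
    (hg : Continuous g) : Continuous fun y => f y ⬝ᵥ g y := by
  simp only [dotProduct]
  refine continuous_finsetSum _ fun i _ => ?_
  exact ((continuous_apply i).comp hf).mul ((continuous_apply i).comp hg)

theorem pr_cont {Y : Type*} [TopologicalSpace Y] {f : Y → Fin n → ℝ} (hf : Continuous f)
    (h0 : ∀ y, f y ≠ 0) : Continuous fun y => pr (f y) :=
  ((dp_cont hf hf).inv₀ fun y => (dp_pos (h0 y)).ne').smul (vmv_cont hf)

/-! ### points -/

/-- the projection matrix of a point -/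
noncomputable def pp (x : ℙ ℝ (Fin n → ℝ)) : Matrix (Fin n) (Fin n) ℝ := pr x.rep

theorem isPr_pp (x : ℙ ℝ (Fin n → ℝ)) : IsPr x.submodule (pp x) := by
  rw [Projectivization.submodule_eq]
  exact isPr_pr x.rep_nonzero

theorem pp_mk (v : Fin n → ℝ) (hv : v ≠ 0) : pp (Projectivization.mk ℝ v hv) = pr v := by
  apply (isPr_pp _).unique
  rw [Projectivization.submodule_mk]
  exact isPr_pr hv

theorem pt_pp (x : ℙ ℝ (Fin n → ℝ)) : Pt (pp x) := pt_pr x.rep_nonzero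

theorem pp_cont : Continuous (pp : ℙ ℝ (Fin n → ℝ) → Matrix (Fin n) (Fin n) ℝ) := by
  rw [(pj_oq (k := ℝ) (ι := Fin n)).isQuotientMap.continuous_iff]
  have : (pp ∘ pj ℝ (Fin n)) = fun v : {v : Fin n → ℝ // v ≠ 0} => pr v.1 := by
    funext v
    exact pp_mk v.1 v.2
  rw [this]
  exact pr_cont continuous_subtype_val fun v => v.2

theorem pp_inj : Function.Injective (pp : ℙ ℝ (Fin n → ℝ) → Matrix (Fin n) (Fin n) ℝ) := by
  intro x y h
  apply Projectivization.submodule_injective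
  ext v
  rw [(isPr_pp x).mem_iff, (isPr_pp y).mem_iff, h]

/-! ### lines -/

/-- the projection matrix of a line -/
noncomputable def gp (L : Gr ℝ (Fin n) 2) : Matrix (Fin n) (Fin n) ℝ :=
  pr2 ((Classical.choose (sp_surj L)).1 0) ((Classical.choose (sp_surj L)).1 1)

theorem isPr_gp (L : Gr ℝ (Fin n) 2) : IsPr L.1 (gp L) := by
  have h := isPr_pr2 (Classical.choose (sp_surj L)).2
  have e : Submodule.span ℝ (range (Classical.choose (sp_surj L)).1) = L.1 :=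
    congrArg Subtype.val (Classical.choose_spec (sp_surj L))
  rw [e] at h
  exact h

theorem ln_gp (L : Gr ℝ (Fin n) 2) : Ln (gp L) := ln_pr2 (Classical.choose (sp_surj L)).2

theorem gp_sp (v : Fr ℝ (Fin n) 2) : gp (sp v) = pr2 (v.1 0) (v.1 1) :=
  (isPr_gp (sp v)).unique (isPr_pr2 v.2)

theorem gp_cont : Continuous (gp : Gr ℝ (Fin n) 2 → Matrix (Fin n) (Fin n) ℝ) := by
  rw [(sp_quot (k := ℝ) (ι := Fin n) (j := 2)).continuous_iff]
  have : (gp ∘ sp) = fun v : Fr ℝ (Fin n) 2 => pr2 (v.1 0) (v.1 1) := by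
    funext v
    exact gp_sp v
  rw [this]
  have hv : Continuous fun v : Fr ℝ (Fin n) 2 => v.1 := H100.Gr.fr_val_cont
  have h0 : Continuous fun v : Fr ℝ (Fin n) 2 => v.1 0 := (continuous_apply 0).comp hv
  have h1 : Continuous fun v : Fr ℝ (Fin n) 2 => v.1 1 := (continuous_apply 1).comp hv
  have n0 : ∀ v : Fr ℝ (Fin n) 2, v.1 0 ≠ 0 := fun v => v.2.ne_zero 0
  refine (pr_cont h0 n0).add (pr_cont ?_ fun v => ww_ne v.2)
  have hd : Continuous fun v : Fr ℝ (Fin n) 2 => (v.1 0 ⬝ᵥ v.1 1) / (v.1 0 ⬝ᵥ v.1 0) :=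
    (dp_cont h0 h1).div (dp_cont h0 h0) fun v => (dp_pos (n0 v)).ne'
  exact h1.sub (hd.smul h0)

theorem gp_inj : Function.Injective (gp : Gr ℝ (Fin n) 2 → Matrix (Fin n) (Fin n) ℝ) := by
  intro x y h
  apply Subtype.ext
  ext v
  rw [(isPr_gp x).mem_iff, (isPr_gp y).mem_iff, h]

/-- incidence -/
theorem inc_iff (x : ℙ ℝ (Fin n → ℝ)) (L : Gr ℝ (Fin n) 2) :
    gp L * pp x = pp x ↔ (p1 x).1 ≤ L.1 := by
  constructor
  · intro h v hv
    have hv' : pp x *ᵥ v = v := (isPr_pp x).fix v hv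
    rw [(isPr_gp L).mem_iff]
    conv_lhs => rw [← hv']
    rw [Matrix.mulVec_mulVec, h, hv']
  · intro h
    exact mul_eq_of (isPr_gp L) fun v => h ((isPr_pp x).mem v)

end Vale.Agent.P092.H283.Geo
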