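import Vale.Agent.P092.H283.Syn3
import Vale.Agent.P092.H283.Geo1
import Vale.Agent.P092.H616.SynE
import Vale.Agent.P092.H828.P.Q0d
import Vale.Agent.P092.H232.Join

/-!
# P092, Team P, [P-0R]: the locality inputs of [0] over `ℝ`

`X`-letters live on the points `ℙ ℝ (Fin n → ℝ)`, `Z`-letters on any compact space `Z` of real
projective lines (a continuous injection `j : Z → Gr ℝ (Fin n) 2`), incidence
`IT x z := (p1 x).1 ≤ (j z).1`. Input: positive letters `UL` and (I1) (`Nin IT f g → E f * F g = 0`).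
Output: helper828's `Loc`, `Loc0`, points at the ends (`loc_R`, `loc0_R`) and lines at the ends
(`locD_R`, `loc0D_R`), with two different letters at the two ends.
-/

set_option linter.unusedSectionVars false

namespace Vale.Agent.P092.H283.LocR

open Set Topology
open scoped LinearAlgebra.Projectivization
open Vale.Agent.P092.H828.P (UL Loc Loc0 Dis)
open Vale.Agent.P092.H616.Syn (Geo Rel Bdd bdd_of_UL cx)
open Vale.Agent.P092.H100.Gr (Gr)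
open Vale.Agent.P092.H644.Gr3 (p1)
open Vale.Agent.P092.H232 (Nin)
open Vale.Agent.P092.H283.Geo

variable {n : ℕ} {K : Type*} [NormedAddCommGroup K] [InnerProductSpace ℂ K] [CompleteSpace K]

section rel

variable {X Z : Type*} [TopologicalSpace X] [CompactSpace X] [TopologicalSpace Z] [CompactSpace Z]
  {P : C(X, Matrix (Fin n) (Fin n) ℝ)} {Q : C(Z, Matrix (Fin n) (Fin n) ℝ)}
  {E : C(X, ℂ) →ₗ[ℂ] (K →L[ℂ] K)} {F : C(Z, ℂ) →ₗ[ℂ] (K →L[ℂ] K)} {p q : ℝ}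

/-- the relations `P Q = P`, `Q P = P` between two letters -/
theorem rel_of (hP : ∀ x, H702.Pt (P x)) (hQ : ∀ z, H702.Ln (Q z)) (hE : UL E p) (hF : UL F q)
    (hI : ∀ (f : C(X, ℂ)) (g : C(Z, ℂ)),
      (∀ x ∈ tsupport f, ∀ z ∈ tsupport g, Q z * P x ≠ P x) → E f * F g = 0) :
    Rel P Q E F := by
  rcases subsingleton_or_nontrivial K with hK | hK
  · have : Subsingleton (K →L[ℂ] K) := ⟨fun a b => by ext x; exact Subsingleton.elim _ _⟩
    exact ⟨fun _ _ _ _ => Subsingleton.elim _ _, fun _ _ _ _ => Subsingleton.elim _ _⟩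
  · exact ⟨fun a b i j => Syn.rel_l hP hQ hE.mass_nonneg hF.mass_nonneg hE hF hI a b i j,
      fun a b i j => Syn.rel_r hP hQ hE.mass_nonneg hF.mass_nonneg hE hF hI a b i j⟩

end rel

variable {Z : Type*} [TopologicalSpace Z] [CompactSpace Z] [T2Space Z]

/-- incidence of a point and a line -/
def Inc (j : Z → Gr ℝ (Fin n) 2) (x : ℙ ℝ (Fin n → ℝ)) (z : Z) : Prop := (p1 x).1 ≤ (j z).1

/-- the points as projections -/
noncomputable def PP (n : ℕ) : C(ℙ ℝ (Fin n → ℝ), Matrix (Fin n) (Fin n) ℝ) := ⟨pp, pp_cont⟩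

/-- the lines as projections -/
noncomputable def QQ {j : Z → Gr ℝ (Fin n) 2} (hj : Continuous j) :
    C(Z, Matrix (Fin n) (Fin n) ℝ) := ⟨fun z => gp (j z), gp_cont.comp hj⟩

theorem geo {j : Z → Gr ℝ (Fin n) 2} (hj : Continuous j) (hi : Function.Injective j) :
    Geo (PP n) (QQ hj) where
  injX := pp_inj
  injP := gp_inj.comp hi
  pt := pt_pp
  ln := fun z => ln_gp (j z)

variable {j : Z → Gr ℝ (Fin n) 2} {E E' E₁ E₂ : C(ℙ ℝ (Fin n → ℝ), ℂ) →ₗ[ℂ] (K →L[ℂ] K)}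
  {F F' F₁ F₂ : C(Z, ℂ) →ₗ[ℂ] (K →L[ℂ] K)} {p p₁ p₂ q q₁ q₂ : ℝ}

theorem rel_R (hj : Continuous j) (hE : UL E p) (hF : UL F q)
    (hI : ∀ f g, Nin (Inc j) f g → E f * F g = 0) : Rel (PP n) (QQ hj) E F :=
  rel_of pt_pp (fun z => ln_gp (j z)) hE hF fun f g hfg => hI f g fun x hx z hz hinc =>
    hfg x hx z hz ((inc_iff x (j z)).mpr hinc)

/-- **(1) of [0] over `ℝ`, points at the ends** -/
theorem loc_R (hj : Continuous j) (hi : Function.Injective j)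
    (h₁ : UL E₁ p₁) (h₂ : UL E₂ p₂) (hF : UL F q) (hF' : UL F' q)
    (i₁ : ∀ f g, Nin (Inc j) f g → E₁ f * F g = 0)
    (i₁' : ∀ f g, Nin (Inc j) f g → E₁ f * F' g = 0)
    (i₂ : ∀ f g, Nin (Inc j) f g → E₂ f * F g = 0)
    (i₂' : ∀ f g, Nin (Inc j) f g → E₂ f * F' g = 0) : Loc E₁ E₂ F F' :=
  H616.Syn.loc (geo hj hi) (bdd_of_UL h₁) (bdd_of_UL h₂) (bdd_of_UL hF) (bdd_of_UL hF')
    (rel_R hj h₁ hF i₁) (rel_R hj h₁ hF' i₁') (rel_R hj h₂ hF i₂) (rel_R hj h₂ hF' i₂')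
    (hF.one.trans hF'.one.symm)

/-- **(5) of [0] over `ℝ`, points at the ends** -/
theorem loc0_R (hj : Continuous j) (hi : Function.Injective j)
    (h₁ : UL E₁ p₁) (h₂ : UL E₂ p₂) (hF : UL F q)
    (i₁ : ∀ f g, Nin (Inc j) f g → E₁ f * F g = 0)
    (i₂ : ∀ f g, Nin (Inc j) f g → E₂ f * F g = 0) (hd : Dis E₁ E₂) : Loc0 E₁ E₂ F :=
  H616.Syn.loc0 (geo hj hi) (bdd_of_UL h₁) (bdd_of_UL h₂) (bdd_of_UL hF)
    (rel_R hj h₁ hF i₁) (rel_R hj h₂ hF i₂) hd hF.one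

/-- **(1) of [0] over `ℝ`, lines at the ends** -/
theorem locD_R (hj : Continuous j) (hi : Function.Injective j)
    (h₁ : UL F₁ q₁) (h₂ : UL F₂ q₂) (hE : UL E p) (hE' : UL E' p)
    (i₁ : ∀ f g, Nin (Inc j) f g → E f * F₁ g = 0)
    (i₁' : ∀ f g, Nin (Inc j) f g → E' f * F₁ g = 0)
    (i₂ : ∀ f g, Nin (Inc j) f g → E f * F₂ g = 0)
    (i₂' : ∀ f g, Nin (Inc j) f g → E' f * F₂ g = 0) : Loc F₁ F₂ E E' :=
  H616.Syn.locD (geo hj hi) (bdd_of_UL h₁) (bdd_of_UL h₂) (bdd_of_UL hE) (bdd_of_UL hE')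
    (rel_R hj hE h₁ i₁) (rel_R hj hE' h₁ i₁') (rel_R hj hE h₂ i₂) (rel_R hj hE' h₂ i₂')
    (hE.one.trans hE'.one.symm)

/-- **(5) of [0] over `ℝ`, lines at the ends** -/
theorem loc0D_R (hj : Continuous j) (hi : Function.Injective j)
    (h₁ : UL F₁ q₁) (h₂ : UL F₂ q₂) (hE : UL E p)
    (i₁ : ∀ f g, Nin (Inc j) f g → E f * F₁ g = 0)
    (i₂ : ∀ f g, Nin (Inc j) f g → E f * F₂ g = 0) (hd : Dis F₁ F₂) : Loc0 F₁ F₂ E :=
  H616.Syn.loc0D (geo hj hi) (bdd_of_UL h₁) (bdd_of_UL h₂) (bdd_of_UL hE)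
    (rel_R hj hE h₁ i₁) (rel_R hj hE h₂ i₂) hd hE.one

end Vale.Agent.P092.H283.LocR
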