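import Vale.Agent.P092.H283.LocR
import Vale.Agent.P092.H370.Sp4

/-!
# P092, Team P, [P-0R] in the letters of SP: points `YY ℝ 3`, lines `LL ℝ`, incidence `on`,
positive letters `SP.UL`.
-/

set_option linter.unusedSectionVars false

namespace Vale.Agent.P092.H283.LocSP

open scoped LinearAlgebra.Projectivization
open Vale.Agent.P092.H828.P (Loc Loc0 Dis)
open Vale.Agent.P092.H232 (Nin)
open Vale.Agent.P092.SP (UL)
open Vale.Agent.P092.SP4 (LL on val_cont)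
open Vale.Agent.P092.RC (YY)

variable {K : Type*} [NormedAddCommGroup K] [InnerProductSpace ℂ K] [CompleteSpace K]
  {E E' E₁ E₂ : C(YY ℝ 3, ℂ) →ₗ[ℂ] (K →L[ℂ] K)} {F F' F₁ F₂ : C(LL ℝ, ℂ) →ₗ[ℂ] (K →L[ℂ] K)}
  {p p₁ p₂ q q₁ q₂ : ℝ}

theorem val_inj : Function.Injective (fun l : LL ℝ => l.1) := fun _ _ h => Subtype.ext h

/-- **(1) of [0] over `ℝ`, points at the ends** -/
theorem loc (h₁ : UL E₁ p₁) (h₂ : UL E₂ p₂) (hF : UL F q) (hF' : UL F' q)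
    (i₁ : ∀ f g, Nin on f g → E₁ f * F g = 0) (i₁' : ∀ f g, Nin on f g → E₁ f * F' g = 0)
    (i₂ : ∀ f g, Nin on f g → E₂ f * F g = 0) (i₂' : ∀ f g, Nin on f g → E₂ f * F' g = 0) :
    Loc E₁ E₂ F F' :=
  LocR.loc_R (j := fun l : LL ℝ => l.1) val_cont val_inj (H828.P.UL.ofSP h₁) (H828.P.UL.ofSP h₂)
    (H828.P.UL.ofSP hF) (H828.P.UL.ofSP hF') i₁ i₁' i₂ i₂'

/-- **(5) of [0] over `ℝ`, points at the ends** -/
theorem loc0 (h₁ : UL E₁ p₁) (h₂ : UL E₂ p₂) (hF : UL F q)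
    (i₁ : ∀ f g, Nin on f g → E₁ f * F g = 0) (i₂ : ∀ f g, Nin on f g → E₂ f * F g = 0)
    (hd : Dis E₁ E₂) : Loc0 E₁ E₂ F :=
  LocR.loc0_R (j := fun l : LL ℝ => l.1) val_cont val_inj (H828.P.UL.ofSP h₁) (H828.P.UL.ofSP h₂)
    (H828.P.UL.ofSP hF) i₁ i₂ hd

/-- **(1) of [0] over `ℝ`, lines at the ends** -/
theorem locD (h₁ : UL F₁ q₁) (h₂ : UL F₂ q₂) (hE : UL E p) (hE' : UL E' p)
    (i₁ : ∀ f g, Nin on f g → E f * F₁ g = 0) (i₁' : ∀ f g, Nin on f g → E' f * F₁ g = 0)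
    (i₂ : ∀ f g, Nin on f g → E f * F₂ g = 0) (i₂' : ∀ f g, Nin on f g → E' f * F₂ g = 0) :
    Loc F₁ F₂ E E' :=
  LocR.locD_R (j := fun l : LL ℝ => l.1) val_cont val_inj (H828.P.UL.ofSP h₁) (H828.P.UL.ofSP h₂)
    (H828.P.UL.ofSP hE) (H828.P.UL.ofSP hE') i₁ i₁' i₂ i₂'

/-- **(5) of [0] over `ℝ`, lines at the ends** -/
theorem loc0D (h₁ : UL F₁ q₁) (h₂ : UL F₂ q₂) (hE : UL E p)
    (i₁ : ∀ f g, Nin on f g → E f * F₁ g = 0) (i₂ : ∀ f g, Nin on f g → E f * F₂ g = 0)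
    (hd : Dis F₁ F₂) : Loc0 F₁ F₂ E :=
  LocR.loc0D_R (j := fun l : LL ℝ => l.1) val_cont val_inj (H828.P.UL.ofSP h₁)
    (H828.P.UL.ofSP h₂) (H828.P.UL.ofSP hE) i₁ i₂ hd

end Vale.Agent.P092.H283.LocSP
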