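import Vale.Agent.P092.H283.Syn1

/-! # Archimedean synthesis, part 2: (S1) -/

namespace Vale.Agent.P092.H283.Syn

open Finset

/-- cut-off: `1` up to `c`, `0` from `2 c` on -/
noncomputable def cut (c t : ℝ) : ℝ := max 0 (min 1 (2 - t / c))

lemma cut_nonneg (c t : ℝ) : 0 ≤ cut c t := le_max_left _ _

lemma cut_le_one (c t : ℝ) : cut c t ≤ 1 := max_le (by norm_num) (min_le_left _ _)

lemma cut_one {c t : ℝ} (hc : 0 < c) (h : t ≤ c) : cut c t = 1 := by
  unfold cut
  have : t / c ≤ 1 := by rw [div_le_one hc]; exact h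
  rw [min_eq_left (by linarith)]
  norm_num

lemma cut_zero {c t : ℝ} (hc : 0 < c) (h : 2 * c ≤ t) : cut c t = 0 := by
  unfold cut
  have : 2 ≤ t / c := by rw [le_div_iff₀ hc]; exact h
  exact max_eq_left ((min_le_right _ _).trans (by linarith))

lemma continuous_cut (c : ℝ) : Continuous (cut c) := by
  unfold cut
  fun_prop

/-- number of grid indices near one point -/
lemma card_near {κ : Type} [Fintype κ] [DecidableEq κ] (R : ℝ) (hR : 0 ≤ R) (m : κ → ℝ)
    (S : Finset (κ → ℤ)) (hS : ∀ α ∈ S, ∀ i, |(α i : ℝ) - m i| ≤ R) :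
    (S.card : ℝ) ≤ (2 * R + 2) ^ Fintype.card κ := by
  have hsub : S ⊆ Fintype.piFinset (fun i => Finset.Icc ⌈m i - R⌉ ⌊m i + R⌋) := by
    intro α hα
    rw [Fintype.mem_piFinset]
    intro i
    obtain ⟨h1, h2⟩ := abs_le.mp (hS α hα i)
    rw [Finset.mem_Icc]
    constructor
    · apply Int.ceil_le.mpr; linarith
    · apply Int.le_floor.mpr; linarith
  have h1 : (S.card : ℝ) ≤
      (Fintype.piFinset (fun i => Finset.Icc ⌈m i - R⌉ ⌊m i + R⌋)).card := by
    exact_mod_cast Finset.card_le_card hsub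
  refine h1.trans ?_
  rw [Fintype.card_piFinset]
  push_cast
  calc ∏ i : κ, ((Finset.Icc ⌈m i - R⌉ ⌊m i + R⌋).card : ℝ)
      ≤ ∏ _i : κ, (2 * R + 2) := by
        apply Finset.prod_le_prod
        · intro i _; positivity
        · intro i _
          rw [Int.card_Icc]
          have h3 : ((⌊m i + R⌋ + 1 - ⌈m i - R⌉ : ℤ) : ℝ) ≤ 2 * R + 2 := by
            push_cast
            have := Int.floor_le (m i + R)
            have := Int.le_ceil (m i - R)
            linarith
          have h4 : (((⌊m i + R⌋ + 1 - ⌈m i - R⌉).toNat : ℤ) : ℝ) ≤ 2 * R + 2 := by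
            rw [Int.toNat_eq_max]
            push_cast
            apply max_le
            · push_cast at h3; exact h3
            · linarith
          exact_mod_cast h4
    _ = (2 * R + 2) ^ Fintype.card κ := by simp

variable {X Z K : Type*} [TopologicalSpace X] [CompactSpace X] [TopologicalSpace Z] [CompactSpace Z]
  [NormedAddCommGroup K] [InnerProductSpace ℂ K] [CompleteSpace K]

/-- real function as complex function -/
noncomputable def cx {Y : Type*} [TopologicalSpace Y] (h : C(Y, ℝ)) : C(Y, ℂ) where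
  toFun y := ((h y : ℝ) : ℂ)
  continuous_toFun := by fun_prop

@[simp] lemma cx_apply {Y : Type*} [TopologicalSpace Y] (h : C(Y, ℝ)) (y : Y) :
    cx h y = ((h y : ℝ) : ℂ) := rfl

/-- Data for (S1): coordinates `p` on `X`, defect `D`, covering number `O(1/ε)`. -/
structure Tube (X Z : Type*) [TopologicalSpace X] [TopologicalSpace Z] (κ : Type) [Fintype κ] where
  p : κ → C(X, ℝ)
  hp : ∀ i x, |p i x| ≤ 1
  D : X → C(Z, ℝ)
  L : ℝ
  hL : 0 < L
  hD : ∀ x x' z e, 0 ≤ e → (∀ i, |p i x - p i x'| ≤ e) → |D x z - D x' z| ≤ L * e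
  cov : ∀ e : ℝ, 0 < e → e ≤ 1 → ∀ z, ∃ F : Finset (κ → ℝ), (F.card : ℝ) ≤ L / e ∧
    ∀ x, D x z ≤ e → ∃ m ∈ F, ∀ i, |p i x - m i| ≤ L * e

variable {κ : Type} [Fintype κ]

/-- the error constant of one grid step is `O(1/√N)` -/
theorem s1_step [DecidableEq κ] (G : Tube X Z κ) [Nonempty X]
    {A : C(X, ℂ) →ₗ[ℂ] (K →L[ℂ] K)} {B : C(Z, ℂ) →ₗ[ℂ] (K →L[ℂ] K)} {CA CB : ℝ}
    (hA0 : 0 ≤ CA) (hB0 : 0 ≤ CB)
    (hAs : ∀ f, A (star f) = star (A f)) (kA : Kad A CA) (kB : Kad B CB)
    (hI : ∀ (f : C(X, ℂ)) (g : C(Z, ℂ)), (∀ x ∈ tsupport f, ∀ z ∈ tsupport g, 0 < G.D x z) →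
      A f * B g = 0)
    {ρ : Type} [Fintype ρ] (u : ρ → C(X, ℂ)) (v : ρ → C(Z, ℂ))
    (hu : ∀ r x x' e, 0 ≤ e → (∀ i, |G.p i x - G.p i x'| ≤ e) → ‖u r x - u r x'‖ ≤ G.L * e)
    (hΦ : ∀ x z, ‖∑ r, u r x * v r z‖ ≤ G.L * G.D x z)
    (f : C(X, ℂ)) (g : C(Z, ℂ)) (N : ℕ) (hN : 8 * G.L ≤ N) :
    ‖∑ r, A (f * u r) * B (g * v r)‖ ≤
      Real.sqrt (CA * ‖f‖ ^ 2 * (CB * ((N / 8 * (2 * (1 + 8 * G.L ^ 2) + 2) ^ Fintype.card κ) *
        (‖g‖ * (G.L * (8 * G.L / N))) ^ 2))) +
      ∑ r, Real.sqrt (CA * (‖f‖ * (G.L * (2 / N))) ^ 2 *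
        (CB * ((N / 8 * (2 * (1 + 8 * G.L ^ 2) + 2) ^ Fintype.card κ) * (‖g‖ * ‖v r‖) ^ 2))) := by
  classical
  have hL := G.hL
  have hNpos : (0 : ℝ) < N := by linarith
  set c : ℝ := 4 * G.L with hc
  have hcpos : 0 < c := by positivity
  -- chosen points
  have hch : ∀ α : κ → ℤ, ∃ x0 : X, (∃ x, cell N G.p α x ≠ 0) → cell N G.p α x0 ≠ 0 := by
    intro α
    by_cases h : ∃ x, cell N G.p α x ≠ 0
    · exact ⟨h.choose, fun _ => h.choose_spec⟩
    · exact ⟨Classical.arbitrary X, fun h' => absurd h' h⟩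
  choose xa hxa using hch
  set s : Finset (κ → ℤ) := (cells N).filter (fun α => ∃ x, cell N G.p α x ≠ 0) with hs
  have hsα : ∀ α ∈ s, cell N G.p α (xa α) ≠ 0 := fun α hα => hxa α (Finset.mem_filter.mp hα).2
  have hsum : ∀ x, ∑ α ∈ s, cell N G.p α x = 1 := by
    intro x
    rw [← sum_cell N G.p G.hp x]
    apply Finset.sum_subset (Finset.filter_subset _ _)
    intro α hα hα'
    by_contra h
    exact hα' (Finset.mem_filter.mpr ⟨hα, x, h⟩)
  -- closeness on cells
  have hclose : ∀ α ∈ s, ∀ x, (∀ i, |N * G.p i x - α i| ≤ 1) →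
      ∀ i, |G.p i x - G.p i (xa α)| ≤ 2 / N := by
    intro α hα x hx i
    have h1 := hx i
    have h2 := cell_near (hsα α hα) i
    rw [le_div_iff₀ hNpos]
    calc |G.p i x - G.p i (xa α)| * N = |(N * G.p i x - α i) - (N * G.p i (xa α) - α i)| := by
          rw [← abs_of_pos hNpos, ← abs_mul, abs_of_pos hNpos]; ring_nf
      _ ≤ |N * G.p i x - α i| + |N * G.p i (xa α) - α i| := abs_sub _ _
      _ ≤ 2 := by linarith
  -- cut-offs
  let ψ : (κ → ℤ) → C(Z, ℝ) := fun α =>
    ⟨fun z => cut c (N * G.D (xa α) z), (continuous_cut c).comp (by fun_prop)⟩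
  have hψ : ∀ α z, ψ α z = cut c (N * G.D (xa α) z) := fun _ _ => rfl
  -- (I1) kills the part outside of the cut-off
  have hkill : ∀ α ∈ s, ∀ (w : C(X, ℂ)) (y : C(Z, ℂ)),
      A (cx (cell N G.p α) * w) * B (y * (1 - cx (ψ α))) = 0 := by
    intro α hα w y
    apply hI
    intro x hx z hz
    have hx' : ∀ i, |N * G.p i x - α i| ≤ 1 := by
      intro i
      have hcl : IsClosed {x : X | |N * G.p i x - α i| ≤ 1} :=
        isClosed_le (by fun_prop) continuous_const
      have : tsupport (⇑(cx (cell N G.p α) * w)) ⊆ {x : X | |N * G.p i x - α i| ≤ 1} := by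
        apply closure_minimal _ hcl
        intro x hx
        rw [Function.mem_support] at hx
        apply cell_near
        intro h0
        apply hx
        simp [h0]
      exact this hx
    have hz' : c ≤ N * G.D (xa α) z := by
      have hcl : IsClosed {z : Z | c ≤ N * G.D (xa α) z} :=
        isClosed_le continuous_const (by fun_prop)
      have : tsupport (⇑(y * (1 - cx (ψ α)))) ⊆ {z : Z | c ≤ N * G.D (xa α) z} := by
        apply closure_minimal _ hcl
        intro z hz
        rw [Function.mem_support] at hz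
        by_contra hlt
        apply hz
        rw [Set.mem_ofPred_eq, not_le] at hlt
        have : ψ α z = 1 := by rw [hψ]; exact cut_one hcpos hlt.le
        simp [this]
      exact this hz
    have h1 := G.hD x (xa α) z (2 / N) (by positivity) (hclose α hα x hx')
    have h2 : c / N ≤ G.D (xa α) z := by rw [div_le_iff₀ hNpos]; linarith
    have h3 := (abs_le.mp h1).1
    have h4 : c / N = 4 * (G.L / N) := by rw [hc]; ring
    have h5 : G.L * (2 / N) = 2 * (G.L / N) := by ring
    have h6 : 0 < G.L / N := by positivity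
    linarith
  -- counting
  set Cn : ℝ := N / 8 * (2 * (1 + 8 * G.L ^ 2) + 2) ^ Fintype.card κ with hCn
  have hcount : ∀ z, ((s.filter (fun α => ψ α z ≠ 0)).card : ℝ) ≤ Cn := by
    intro z
    have he : (0 : ℝ) < 8 * G.L / N := by positivity
    obtain ⟨F, hF1, hF2⟩ := G.cov (8 * G.L / N) he (by rw [div_le_one hNpos]; exact hN) z
    have hsub : s.filter (fun α => ψ α z ≠ 0) ⊆
        F.biUnion (fun m => (s.filter (fun α => ψ α z ≠ 0)).filter
          (fun α => ∀ i, |(α i : ℝ) - N * m i| ≤ 1 + 8 * G.L ^ 2)) := by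
      intro α hα
      obtain ⟨hα1, hα2⟩ := Finset.mem_filter.mp hα
      have hDz : G.D (xa α) z ≤ 8 * G.L / N := by
        by_contra hlt
        push Not at hlt
        apply hα2
        rw [hψ]
        apply cut_zero hcpos
        rw [div_lt_iff₀ hNpos] at hlt
        rw [hc]
        nlinarith
      obtain ⟨m, hm1, hm2⟩ := hF2 (xa α) hDz
      rw [Finset.mem_biUnion]
      refine ⟨m, hm1, Finset.mem_filter.mpr ⟨hα, fun i => ?_⟩⟩
      have h1 := cell_near (hsα α hα1) i
      have h2 : |N * G.p i (xa α) - N * m i| ≤ 8 * G.L ^ 2 := by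
        rw [← mul_sub, abs_mul, abs_of_pos hNpos]
        calc (N : ℝ) * |G.p i (xa α) - m i| ≤ N * (G.L * (8 * G.L / N)) :=
              mul_le_mul_of_nonneg_left (hm2 i) hNpos.le
          _ = 8 * G.L ^ 2 := by field_simp
      calc |(α i : ℝ) - N * m i| = |(N * G.p i (xa α) - N * m i) - (N * G.p i (xa α) - α i)| := by
            ring_nf
        _ ≤ |N * G.p i (xa α) - N * m i| + |N * G.p i (xa α) - α i| := abs_sub _ _
        _ ≤ 1 + 8 * G.L ^ 2 := by linarith
    have h1 : ((s.filter (fun α => ψ α z ≠ 0)).card : ℝ) ≤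
        ∑ m ∈ F, (((s.filter (fun α => ψ α z ≠ 0)).filter
          (fun α => ∀ i, |(α i : ℝ) - N * m i| ≤ 1 + 8 * G.L ^ 2)).card : ℝ) := by
      have := (Finset.card_le_card hsub).trans Finset.card_biUnion_le
      exact_mod_cast this
    refine h1.trans ?_
    calc ∑ m ∈ F, (((s.filter (fun α => ψ α z ≠ 0)).filter
          (fun α => ∀ i, |(α i : ℝ) - N * m i| ≤ 1 + 8 * G.L ^ 2)).card : ℝ)
        ≤ ∑ _m ∈ F, (2 * (1 + 8 * G.L ^ 2) + 2) ^ Fintype.card κ := by
          apply Finset.sum_le_sum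
          intro m _
          exact card_near (1 + 8 * G.L ^ 2) (by positivity) (fun i => N * m i) _
            (fun α hα => (Finset.mem_filter.mp hα).2)
      _ = F.card * (2 * (1 + 8 * G.L ^ 2) + 2) ^ Fintype.card κ := by
          rw [Finset.sum_const, nsmul_eq_mul]
      _ ≤ Cn := by
          rw [hCn]
          apply mul_le_mul_of_nonneg_right _ (by positivity)
          refine hF1.trans (le_of_eq ?_)
          field_simp
  have hCn0 : 0 ≤ Cn := by rw [hCn]; positivity
  -- bound of sums over the cells of a function cut to ψ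
  have hbsum : ∀ (b : (κ → ℤ) → C(Z, ℂ)) (M : ℝ), 0 ≤ M → (∀ α ∈ s, ∀ z, ‖b α z‖ ≤ M) →
      (∀ α z, ψ α z = 0 → b α z = 0) → ∀ z, ∑ α ∈ s, ‖b α z‖ ^ 2 ≤ Cn * M ^ 2 := by
    intro b M hM hb hb0 z
    have : ∑ α ∈ s, ‖b α z‖ ^ 2 = ∑ α ∈ s.filter (fun α => ψ α z ≠ 0), ‖b α z‖ ^ 2 := by
      symm
      apply Finset.sum_filter_of_ne
      intro α _ hne h0
      apply hne
      rw [hb0 α z h0]
      simp
    rw [this]
    calc ∑ α ∈ s.filter (fun α => ψ α z ≠ 0), ‖b α z‖ ^ 2
        ≤ ∑ _α ∈ s.filter (fun α => ψ α z ≠ 0), M ^ 2 := by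
          apply Finset.sum_le_sum
          intro α hα
          exact pow_le_pow_left₀ (norm_nonneg _) (hb α (Finset.mem_filter.mp hα).1 z) 2
      _ = ((s.filter (fun α => ψ α z ≠ 0)).card : ℝ) * M ^ 2 := by
          rw [Finset.sum_const, nsmul_eq_mul]
      _ ≤ Cn * M ^ 2 := mul_le_mul_of_nonneg_right (hcount z) (sq_nonneg _)
  -- bound of sums over the cells of a function with the factor `cell`
  have hasum : ∀ (a : (κ → ℤ) → C(X, ℂ)) (M : ℝ), 0 ≤ M →
      (∀ α ∈ s, ∀ x, ‖a α x‖ ≤ M * cell N G.p α x) → ∀ x, ∑ α ∈ s, ‖a α x‖ ^ 2 ≤ M ^ 2 := by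
    intro a M hM ha x
    calc ∑ α ∈ s, ‖a α x‖ ^ 2 ≤ ∑ α ∈ s, M ^ 2 * cell N G.p α x := by
          apply Finset.sum_le_sum
          intro α hα
          have h0 := cell_nonneg N G.p α x
          have h1 := cell_le_one N G.p α x
          calc ‖a α x‖ ^ 2 ≤ (M * cell N G.p α x) ^ 2 :=
                pow_le_pow_left₀ (norm_nonneg _) (ha α hα x) 2
            _ = M ^ 2 * (cell N G.p α x * cell N G.p α x) := by ring
            _ ≤ M ^ 2 * (cell N G.p α x * 1) := by
                apply mul_le_mul_of_nonneg_left _ (sq_nonneg _)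
                exact mul_le_mul_of_nonneg_left h1 h0
            _ = M ^ 2 * cell N G.p α x := by ring
      _ = M ^ 2 := by rw [← Finset.mul_sum, hsum, mul_one]
  -- decomposition
  let φ : (κ → ℤ) → C(X, ℂ) := fun α => cx (cell N G.p α)
  let Ψ : (κ → ℤ) → C(Z, ℂ) := fun α => cx (ψ α)
  have hφsum : ∑ α ∈ s, φ α = 1 := by
    ext x
    simp only [φ, ContinuousMap.coe_sum, Finset.sum_apply, cx_apply, ContinuousMap.one_apply]
    rw [← Complex.ofReal_sum, hsum x]
    simp
  have hcutB : ∀ α ∈ s, ∀ (w : C(X, ℂ)) (y : C(Z, ℂ)),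
      A (φ α * w) * B y = A (φ α * w) * B (y * Ψ α) := by
    intro α hα w y
    have h := hkill α hα w y
    have h2 : B y = B (y * Ψ α) + B (y * (1 - Ψ α)) := by
      rw [← map_add]
      congr 1
      ring
    rw [h2, mul_add]
    change _ + A (cx (cell N G.p α) * w) * B (y * (1 - cx (ψ α))) = _
    rw [h, add_zero]
  have hdec : ∑ r, A (f * u r) * B (g * v r) =
      ∑ α ∈ s, A (φ α * f) * B ((g * ∑ r, (u r (xa α)) • v r) * Ψ α) +
      ∑ r, ∑ α ∈ s, A (φ α * (f * (u r - ContinuousMap.const X (u r (xa α))))) *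
        B ((g * v r) * Ψ α) := by
    have e1 : ∀ r, A (f * u r) * B (g * v r) =
        ∑ α ∈ s, A (φ α * (f * u r)) * B (g * v r) := by
      intro r
      rw [← Finset.sum_mul, ← map_sum, ← Finset.sum_mul, hφsum, one_mul]
    have e2 : ∀ r, ∀ α ∈ s, A (φ α * (f * u r)) * B (g * v r) =
        A (φ α * f) * B ((g * ((u r (xa α)) • v r)) * Ψ α) +
        A (φ α * (f * (u r - ContinuousMap.const X (u r (xa α))))) * B ((g * v r) * Ψ α) := by
      intro r α hα
      have h1 : φ α * (f * u r) = (u r (xa α)) • (φ α * f) +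
          φ α * (f * (u r - ContinuousMap.const X (u r (xa α)))) := by
        ext x
        simp
        ring
      rw [h1, map_add, add_mul, ← hcutB α hα (f * (u r - ContinuousMap.const X (u r (xa α)))),
        ← hcutB α hα f]
      congr 1
      rw [map_smul, mul_smul_comm, map_smul, smul_mul_assoc, mul_smul_comm]
    calc ∑ r, A (f * u r) * B (g * v r)
        = ∑ r, ∑ α ∈ s, (A (φ α * f) * B ((g * ((u r (xa α)) • v r)) * Ψ α) +
        A (φ α * (f * (u r - ContinuousMap.const X (u r (xa α))))) * B ((g * v r) * Ψ α)) := by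
          apply Finset.sum_congr rfl
          intro r _
          rw [e1 r]
          exact Finset.sum_congr rfl (e2 r)
      _ = ∑ r, ∑ α ∈ s, (A (φ α * f) * B ((g * ((u r (xa α)) • v r)) * Ψ α)) +
        ∑ r, ∑ α ∈ s, (A (φ α * (f * (u r - ContinuousMap.const X (u r (xa α))))) *
          B ((g * v r) * Ψ α)) := by
          rw [← Finset.sum_add_distrib]
          exact Finset.sum_congr rfl fun r _ => Finset.sum_add_distrib
      _ = _ := by
          congr 1
          rw [Finset.sum_comm]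
          apply Finset.sum_congr rfl
          intro α _
          rw [← Finset.mul_sum, ← map_sum, ← Finset.sum_mul, ← Finset.mul_sum]
  rw [hdec]
  refine (norm_add_le _ _).trans (add_le_add ?_ ((norm_sum_le _ _).trans ?_))
  · -- first term
    apply cs hA0 hB0 hAs kA kB s _ _ (sq_nonneg _) (by positivity)
    · apply hasum _ ‖f‖ (norm_nonneg _)
      intro α _ x
      simp only [φ, ContinuousMap.mul_apply, cx_apply, norm_mul, Complex.norm_real,
        Real.norm_eq_abs, abs_of_nonneg (cell_nonneg N G.p α x)]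
      rw [mul_comm]
      exact mul_le_mul_of_nonneg_right (ContinuousMap.norm_coe_le_norm f x) (cell_nonneg _ _ _ _)
    · apply hbsum
      · positivity
      · intro α hα z
        by_cases hz : ψ α z = 0
        · simp only [Ψ, ContinuousMap.mul_apply, cx_apply, hz]
          simp only [Complex.ofReal_zero, mul_zero, norm_zero]
          positivity
        have hDz : G.D (xa α) z ≤ 8 * G.L / N := by
          by_contra hlt
          push Not at hlt
          apply hz
          rw [hψ]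
          apply cut_zero hcpos
          rw [div_lt_iff₀ hNpos] at hlt
          rw [hc]
          nlinarith
        have h1 : ‖(∑ r, (u r (xa α)) • v r) z‖ ≤ G.L * (8 * G.L / N) := by
          have : (∑ r, (u r (xa α)) • v r) z = ∑ r, u r (xa α) * v r z := by
            simp [ContinuousMap.coe_sum, Finset.sum_apply]
          rw [this]
          exact (hΦ (xa α) z).trans (mul_le_mul_of_nonneg_left hDz hL.le)
        have h2 : ‖(Ψ α) z‖ ≤ 1 := by
          simp only [Ψ, cx_apply, Complex.norm_real, Real.norm_eq_abs]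
          rw [hψ, abs_of_nonneg (cut_nonneg _ _)]
          exact cut_le_one _ _
        rw [ContinuousMap.mul_apply, ContinuousMap.mul_apply, norm_mul, norm_mul]
        calc ‖g z‖ * ‖(∑ r, (u r (xa α)) • v r) z‖ * ‖(Ψ α) z‖
            ≤ (‖g‖ * (G.L * (8 * G.L / N))) * 1 := by
              apply mul_le_mul _ h2 (norm_nonneg _) (by positivity)
              exact mul_le_mul (ContinuousMap.norm_coe_le_norm g z) h1 (norm_nonneg _)
                (norm_nonneg _)
          _ = _ := mul_one _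
      · intro α z hz
        simp [Ψ, hz]
  · -- second term
    apply Finset.sum_le_sum
    intro r _
    apply cs hA0 hB0 hAs kA kB s _ _ (sq_nonneg _) (by positivity)
    · apply hasum _ _ (by positivity)
      intro α hα x
      by_cases hx : cell N G.p α x = 0
      · simp [φ, hx]
      have h1 : ‖u r x - u r (xa α)‖ ≤ G.L * (2 / N) := by
        apply hu _ _ _ _ (by positivity)
        exact hclose α hα x (fun i => cell_near hx i)
      simp only [φ, ContinuousMap.mul_apply, cx_apply, norm_mul, Complex.norm_real,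
        Real.norm_eq_abs, abs_of_nonneg (cell_nonneg N G.p α x), ContinuousMap.sub_apply,
        ContinuousMap.const_apply]
      rw [mul_comm]
      apply mul_le_mul_of_nonneg_right _ (cell_nonneg _ _ _ _)
      exact mul_le_mul (ContinuousMap.norm_coe_le_norm f x) h1 (norm_nonneg _) (norm_nonneg _)
    · apply hbsum
      · positivity
      · intro α hα z
        have h2 : ‖(Ψ α) z‖ ≤ 1 := by
          simp only [Ψ, cx_apply, Complex.norm_real, Real.norm_eq_abs]
          rw [hψ, abs_of_nonneg (cut_nonneg _ _)]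
          exact cut_le_one _ _
        rw [ContinuousMap.mul_apply, ContinuousMap.mul_apply, norm_mul, norm_mul]
        calc ‖g z‖ * ‖v r z‖ * ‖(Ψ α) z‖
            ≤ (‖g‖ * ‖v r‖) * 1 := by
              apply mul_le_mul _ h2 (norm_nonneg _) (by positivity)
              exact mul_le_mul (ContinuousMap.norm_coe_le_norm g z)
                (ContinuousMap.norm_coe_le_norm (v r) z) (norm_nonneg _) (norm_nonneg _)
          _ = _ := mul_one _
      · intro α z hz
        simp [Ψ, hz]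

/-- **(S1)**: the synthesis identity. -/
theorem s1 [DecidableEq κ] (G : Tube X Z κ)
    {A : C(X, ℂ) →ₗ[ℂ] (K →L[ℂ] K)} {B : C(Z, ℂ) →ₗ[ℂ] (K →L[ℂ] K)} {CA CB : ℝ}
    (hA0 : 0 ≤ CA) (hB0 : 0 ≤ CB)
    (hAs : ∀ f, A (star f) = star (A f)) (kA : Kad A CA) (kB : Kad B CB)
    (hI : ∀ (f : C(X, ℂ)) (g : C(Z, ℂ)), (∀ x ∈ tsupport f, ∀ z ∈ tsupport g, 0 < G.D x z) →
      A f * B g = 0)
    {ρ : Type} [Fintype ρ] (u : ρ → C(X, ℂ)) (v : ρ → C(Z, ℂ))
    (hu : ∀ r x x' e, 0 ≤ e → (∀ i, |G.p i x - G.p i x'| ≤ e) → ‖u r x - u r x'‖ ≤ G.L * e)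
    (hΦ : ∀ x z, ‖∑ r, u r x * v r z‖ ≤ G.L * G.D x z)
    (f : C(X, ℂ)) (g : C(Z, ℂ)) :
    ∑ r, A (f * u r) * B (g * v r) = 0 := by
  rcases isEmpty_or_nonempty X with hX | hX
  · apply Finset.sum_eq_zero
    intro r _
    have : f * u r = 0 := by ext x; exact hX.elim x
    rw [this, map_zero, zero_mul]
  have hL := G.hL
  -- both bounds are constants times `1/√N`
  have key : ∀ N : ℕ, 8 * G.L ≤ N → ‖∑ r, A (f * u r) * B (g * v r)‖ ≤
      (Real.sqrt (CA * ‖f‖ ^ 2 * (CB * ((1 / 8 * (2 * (1 + 8 * G.L ^ 2) + 2) ^ Fintype.card κ) *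
        (‖g‖ * (G.L * (8 * G.L))) ^ 2))) +
      ∑ r, Real.sqrt (CA * (‖f‖ * (G.L * 2)) ^ 2 *
        (CB * ((1 / 8 * (2 * (1 + 8 * G.L ^ 2) + 2) ^ Fintype.card κ) * (‖g‖ * ‖v r‖) ^ 2)))) *
        Real.sqrt (1 / N) := by
    intro N hN
    have hNpos : (0 : ℝ) < N := by linarith
    refine (s1_step G hA0 hB0 hAs kA kB hI u v hu hΦ f g N hN).trans (le_of_eq ?_)
    rw [add_mul, Finset.sum_mul]
    congr 1
    · rw [← Real.sqrt_mul (by positivity)]
      congr 1
      field_simp
    · apply Finset.sum_congr rfl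
      intro r _
      rw [← Real.sqrt_mul (by positivity)]
      congr 1
      field_simp
  have hlim : Filter.Tendsto (fun N : ℕ =>
      (Real.sqrt (CA * ‖f‖ ^ 2 * (CB * ((1 / 8 * (2 * (1 + 8 * G.L ^ 2) + 2) ^ Fintype.card κ) *
        (‖g‖ * (G.L * (8 * G.L))) ^ 2))) +
      ∑ r, Real.sqrt (CA * (‖f‖ * (G.L * 2)) ^ 2 *
        (CB * ((1 / 8 * (2 * (1 + 8 * G.L ^ 2) + 2) ^ Fintype.card κ) * (‖g‖ * ‖v r‖) ^ 2)))) *
        Real.sqrt (1 / N)) Filter.atTop (nhds 0) := by
    have h1 : Filter.Tendsto (fun N : ℕ => Real.sqrt (1 / (N : ℝ))) Filter.atTop (nhds 0) := by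
      have := (Real.continuous_sqrt.tendsto 0).comp (tendsto_one_div_atTop_nhds_zero_nat (𝕜 := ℝ))
      rw [Real.sqrt_zero] at this
      exact this
    simpa using h1.const_mul (Real.sqrt (CA * ‖f‖ ^ 2 * (CB * ((1 / 8 *
      (2 * (1 + 8 * G.L ^ 2) + 2) ^ Fintype.card κ) * (‖g‖ * (G.L * (8 * G.L))) ^ 2))) +
      ∑ r, Real.sqrt (CA * (‖f‖ * (G.L * 2)) ^ 2 *
        (CB * ((1 / 8 * (2 * (1 + 8 * G.L ^ 2) + 2) ^ Fintype.card κ) * (‖g‖ * ‖v r‖) ^ 2))))
  have hle : ‖∑ r, A (f * u r) * B (g * v r)‖ ≤ 0 := by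
    apply ge_of_tendsto hlim
    filter_upwards [Filter.eventually_ge_atTop ⌈8 * G.L⌉₊] with N hN
    apply key N
    exact (Nat.le_ceil _).trans (by exact_mod_cast hN)
  exact norm_le_zero_iff.mp hle

end Vale.Agent.P092.H283.Syn
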