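import Vale.Agent.P092.H283.Syn2
import Vale.Agent.P092.H702.Cells
import Vale.Agent.P092.H828.P.Q0a

/-! # Archimedean synthesis, part 3: the relations `X P = X`, `P X = X` between the letters of a
real point and of a real line -/

set_option linter.unusedSectionVars false

namespace Vale.Agent.P092.H283.Syn

open Finset Matrix Vale.Agent.P092.H702 Vale.Agent.P092.H702.Cells

variable {n : ℕ} {X Z K : Type*} [TopologicalSpace X] [CompactSpace X] [TopologicalSpace Z]
  [CompactSpace Z] [NormedAddCommGroup K] [InnerProductSpace ℂ K] [CompleteSpace K]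

/-- one matrix entry as a real function -/
noncomputable def ent (P : C(X, Matrix (Fin n) (Fin n) ℝ)) (i j : Fin n) : C(X, ℝ) where
  toFun x := P x i j
  continuous_toFun := (continuous_apply j).comp ((continuous_apply i).comp P.continuous)

@[simp] lemma ent_apply (P : C(X, Matrix (Fin n) (Fin n) ℝ)) (i j : Fin n) (x : X) :
    ent P i j x = P x i j := rfl

/-- the total defect of incidence -/
noncomputable def dfc (P : C(X, Matrix (Fin n) (Fin n) ℝ)) (Q : C(Z, Matrix (Fin n) (Fin n) ℝ))
    (x : X) : C(Z, ℝ) where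
  toFun z := ∑ i, ∑ j, |((1 - Q z) * P x) i j|
  continuous_toFun := by
    refine continuous_finsetSum _ fun i _ => continuous_finsetSum _ fun j _ => ?_
    have h1 : Continuous fun z => (1 - Q z) * P x :=
      (continuous_const.sub Q.continuous).matrix_mul continuous_const
    exact continuous_abs.comp ((continuous_apply j).comp ((continuous_apply i).comp h1))

lemma dfc_apply (P : C(X, Matrix (Fin n) (Fin n) ℝ)) (Q : C(Z, Matrix (Fin n) (Fin n) ℝ))
    (x : X) (z : Z) : dfc P Q x z = ∑ i, ∑ j, |((1 - Q z) * P x) i j| := rfl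

lemma entry_le_dfc (P : C(X, Matrix (Fin n) (Fin n) ℝ)) (Q : C(Z, Matrix (Fin n) (Fin n) ℝ))
    (x : X) (z : Z) (i j : Fin n) : |((1 - Q z) * P x) i j| ≤ dfc P Q x z := by
  rw [dfc_apply]
  refine le_trans ?_ (Finset.single_le_sum (f := fun i => ∑ j, |((1 - Q z) * P x) i j|)
    (fun i _ => Finset.sum_nonneg fun j _ => abs_nonneg _) (Finset.mem_univ i))
  exact Finset.single_le_sum (f := fun j => |((1 - Q z) * P x) i j|)
    (fun j _ => abs_nonneg _) (Finset.mem_univ j)

lemma dfc_nonneg (P : C(X, Matrix (Fin n) (Fin n) ℝ)) (Q : C(Z, Matrix (Fin n) (Fin n) ℝ))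
    (x : X) (z : Z) : 0 ≤ dfc P Q x z := by
  rw [dfc_apply]
  exact Finset.sum_nonneg fun _ _ => Finset.sum_nonneg fun _ _ => abs_nonneg _

lemma dfc_pos {P : C(X, Matrix (Fin n) (Fin n) ℝ)} {Q : C(Z, Matrix (Fin n) (Fin n) ℝ)}
    {x : X} {z : Z} (h : Q z * P x ≠ P x) : 0 < dfc P Q x z := by
  refine lt_of_le_of_ne (dfc_nonneg P Q x z) fun h0 => h ?_
  have h1 : (1 - Q z) * P x = 0 := by
    ext i j
    have := entry_le_dfc P Q x z i j
    rw [← h0] at this
    exact abs_nonpos_iff.mp this
  rw [Matrix.sub_mul, Matrix.one_mul, sub_eq_zero] at h1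
  exact h1.symm

lemma dfc_ne {P : C(X, Matrix (Fin n) (Fin n) ℝ)} {Q : C(Z, Matrix (Fin n) (Fin n) ℝ)}
    {x : X} {z : Z} (h : 0 < dfc P Q x z) : Q z * P x ≠ P x := by
  intro h0
  have h1 : (1 - Q z) * P x = 0 := by
    rw [Matrix.sub_mul, Matrix.one_mul, h0, sub_self]
  rw [dfc_apply] at h
  simp [h1] at h

lemma ln_le {Q : Matrix (Fin n) (Fin n) ℝ} (h : Ln Q) (i j : Fin n) : |(1 - Q) i j| ≤ 3 := by
  obtain ⟨u, v, hu, hv, -, rfl⟩ := h
  rw [Matrix.sub_apply, Matrix.add_apply, vecMulVec_apply, vecMulVec_apply]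
  have h1 : |u i * u j| ≤ 1 := by
    rw [abs_mul]; exact mul_le_one₀ (coord_le hu i) (abs_nonneg _) (coord_le hu j)
  have h2 : |v i * v j| ≤ 1 := by
    rw [abs_mul]; exact mul_le_one₀ (coord_le hv i) (abs_nonneg _) (coord_le hv j)
  have h3 : |(1 : Matrix (Fin n) (Fin n) ℝ) i j| ≤ 1 := by
    rw [Matrix.one_apply]
    split_ifs <;> simp
  calc |(1 : Matrix (Fin n) (Fin n) ℝ) i j - (u i * u j + v i * v j)|
      ≤ |(1 : Matrix (Fin n) (Fin n) ℝ) i j| + |u i * u j + v i * v j| := abs_sub _ _
    _ ≤ |(1 : Matrix (Fin n) (Fin n) ℝ) i j| + (|u i * u j| + |v i * v j|) := by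
        gcongr; exact abs_add_le _ _
    _ ≤ 3 := by linarith

/-- the tube structure of the real points and lines -/
noncomputable def tube (P : C(X, Matrix (Fin n) (Fin n) ℝ)) (Q : C(Z, Matrix (Fin n) (Fin n) ℝ))
    (hP : ∀ x, Pt (P x)) (hQ : ∀ z, Ln (Q z)) : Tube X Z (Fin n × Fin n) where
  p := fun e => ent P e.1 e.2
  hp := fun e x => pt_le (hP x) e.1 e.2
  D := dfc P Q
  L := 3 * n * n * n + 2 * (n + n * n + 2) + 8
  hL := by positivity
  hD := by
    intro x x' z e he0 he
    rw [dfc_apply, dfc_apply, ← Finset.sum_sub_distrib]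
    have hent : ∀ i j, |(|((1 - Q z) * P x) i j| - |((1 - Q z) * P x') i j|)| ≤ n * (3 * e) := by
      intro i j
      refine (abs_abs_sub_abs_le _ _).trans ?_
      rw [Matrix.mul_apply, Matrix.mul_apply, ← Finset.sum_sub_distrib]
      refine (Finset.abs_sum_le_sum_abs _ _).trans ?_
      calc ∑ k, |(1 - Q z) i k * P x k j - (1 - Q z) i k * P x' k j|
          ≤ ∑ _k : Fin n, 3 * e := by
            apply Finset.sum_le_sum
            intro k _
            rw [← mul_sub, abs_mul]
            exact mul_le_mul (ln_le (hQ z) i k) (he (k, j)) (abs_nonneg _) (by norm_num)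
        _ = n * (3 * e) := by simp
    calc |∑ i, (∑ j, |((1 - Q z) * P x) i j| - ∑ j, |((1 - Q z) * P x') i j|)|
        ≤ ∑ i : Fin n, ∑ j : Fin n, n * (3 * e) := by
          refine (Finset.abs_sum_le_sum_abs _ _).trans ?_
          apply Finset.sum_le_sum
          intro i _
          rw [← Finset.sum_sub_distrib]
          refine (Finset.abs_sum_le_sum_abs _ _).trans ?_
          exact Finset.sum_le_sum fun j _ => hent i j
      _ = (3 * n * n * n) * e := by simp; ring
      _ ≤ (3 * n * n * n + 2 * (n + n * n + 2) + 8) * e := by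
          apply mul_le_mul_of_nonneg_right _ he0
          have : (0:ℝ) ≤ 2 * (n + n * n + 2) + 8 := by positivity
          linarith
  cov := by
    classical
    intro e he he1 z
    obtain ⟨u, v, hu, hv, huv, hQz⟩ := hQ z
    set N : ℕ := ⌊2 * Real.pi / e⌋₊ + 1 with hN
    refine ⟨(Finset.range N).image (fun k : ℕ => fun ij : Fin n × Fin n =>
      vecMulVec (arc u v (k * e)) (arc u v (k * e)) ij.1 ij.2), ?_, ?_⟩
    · have h0 : (((Finset.range N).image (fun k : ℕ => fun ij : Fin n × Fin n =>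
          vecMulVec (arc u v (k * e)) (arc u v (k * e)) ij.1 ij.2)).card : ℝ) ≤ N := by
        have := (Finset.card_image_le (s := Finset.range N) (f := fun k : ℕ =>
          fun ij : Fin n × Fin n => vecMulVec (arc u v (k * e)) (arc u v (k * e)) ij.1 ij.2))
        rw [Finset.card_range] at this
        exact_mod_cast this
      refine h0.trans ?_
      rw [hN]
      push_cast
      have h1 : (⌊2 * Real.pi / e⌋₊ : ℝ) ≤ 2 * Real.pi / e := Nat.floor_le (by positivity)
      have h2 : 2 * Real.pi ≤ 7 := by linarith [Real.pi_lt_d2]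
      rw [le_div_iff₀ he]
      have h3 : (2 * Real.pi / e) * e = 2 * Real.pi := by field_simp
      have h4 : (0:ℝ) ≤ 3 * n * n * n + 2 * (n + n * n + 2) := by positivity
      nlinarith
    · intro x hx
      obtain ⟨w, hw, hPx⟩ := hP x
      have hδ : ∀ i j, |((1 - (vecMulVec u u + vecMulVec v v)) * vecMulVec w w) i j| ≤ e := by
        intro i j
        rw [← hQz, ← hPx]
        exact (entry_le_dfc P Q x z i j).trans hx
      obtain ⟨t, ht0, ht1, ht⟩ := near_arc hu hv huv hw hδ
      set k : ℕ := ⌊t / e⌋₊ with hk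
      have hk1 : (k : ℝ) ≤ t / e := Nat.floor_le (by positivity)
      have hk2 : t / e < k + 1 := Nat.lt_floor_add_one _
      have hk3 : |t - k * e| ≤ e := by
        have h1 : (k : ℝ) * e ≤ t := by
          have := mul_le_mul_of_nonneg_right hk1 he.le
          rwa [div_mul_cancel₀ _ he.ne'] at this
        have h2 : t ≤ (k + 1) * e := by
          have := mul_le_mul_of_nonneg_right hk2.le he.le
          rwa [div_mul_cancel₀ _ he.ne'] at this
        rw [abs_of_nonneg (by linarith)]
        linarith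
      have hkN : k < N := by
        rw [hN, Nat.lt_succ_iff]
        exact Nat.floor_le_floor (by gcongr)
      refine ⟨_, Finset.mem_image.mpr ⟨k, Finset.mem_range.mpr hkN, rfl⟩, ?_⟩
      intro ij
      have hwa : ∀ i, |w i - arc u v (k * e) i| ≤ (n + n * n + 2) * e := by
        intro i
        calc |w i - arc u v (k * e) i|
            = |(w i - arc u v t i) + (arc u v t i - arc u v (k * e) i)| := by ring_nf
          _ ≤ |w i - arc u v t i| + |arc u v t i - arc u v (k * e) i| := abs_add_le _ _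
          _ ≤ (n + n * n) * e + 2 * |t - k * e| := add_le_add (ht i) (arc_sub hu hv _ _ i)
          _ ≤ (n + n * n) * e + 2 * e := by gcongr
          _ = (n + n * n + 2) * e := by ring
      have hP' := vmv_sub (fun i => coord_le hw i)
        (fun i => coord_le (arc_unit hu hv huv (k * e)) i) hwa ij.1 ij.2
      rw [ent_apply, hPx]
      refine hP'.trans ?_
      have h4 : (0:ℝ) ≤ 3 * n * n * n := by positivity
      nlinarith

open Vale.Agent.P092.H828.P (UL)

lemma UL.kad {E : C(X, ℂ) →ₗ[ℂ] (K →L[ℂ] K)} {p : ℝ} (hE : UL E p) : Kad E p :=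
  fun _ s v M hM ξ => hE.bes_le s v M hM ξ

/-- a matrix entry as a complex function -/
noncomputable def cent (P : C(X, Matrix (Fin n) (Fin n) ℝ)) (i j : Fin n) : C(X, ℂ) :=
  cx (ent P i j)

@[simp] lemma cent_apply (P : C(X, Matrix (Fin n) (Fin n) ℝ)) (i j : Fin n) (x : X) :
    cent P i j x = ((P x i j : ℝ) : ℂ) := rfl

lemma Pt.symm' {P : Matrix (Fin n) (Fin n) ℝ} (h : Pt P) (i j : Fin n) : P i j = P j i := by
  obtain ⟨u, -, rfl⟩ := h
  simp [vecMulVec_apply, mul_comm]

lemma Ln.symm' {P : Matrix (Fin n) (Fin n) ℝ} (h : Ln P) (i j : Fin n) : P i j = P j i := by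
  obtain ⟨u, v, -, -, -, rfl⟩ := h
  simp [vecMulVec_apply, mul_comm]

variable {P : C(X, Matrix (Fin n) (Fin n) ℝ)} {Q : C(Z, Matrix (Fin n) (Fin n) ℝ)}
  {E : C(X, ℂ) →ₗ[ℂ] (K →L[ℂ] K)} {F : C(Z, ℂ) →ₗ[ℂ] (K →L[ℂ] K)} {p q : ℝ}

/-- `P Q = P` between the letters of incident real points and lines -/
theorem rel_l (hP : ∀ x, Pt (P x)) (hQ : ∀ z, Ln (Q z)) (hp : 0 ≤ p) (hq : 0 ≤ q)
    (hE : UL E p) (hF : UL F q)
    (hI : ∀ (f : C(X, ℂ)) (g : C(Z, ℂ)),
      (∀ x ∈ tsupport f, ∀ z ∈ tsupport g, Q z * P x ≠ P x) → E f * F g = 0)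
    (a : C(X, ℂ)) (b : C(Z, ℂ)) (i j : Fin n) :
    ∑ k, E (a * cent P i k) * F (cent Q k j * b) = E (a * cent P i j) * F b := by
  classical
  have h := s1 (tube P Q hP hQ) hp hq hE.star (UL.kad hE) (UL.kad hF)
    (fun f g hfg => hI f g fun x hx z hz => dfc_ne (hfg x hx z hz))
    (fun k => cent P i k) (fun k => ContinuousMap.const Z ((if k = j then 1 else 0 : ℝ) : ℂ) -
      cent Q k j) ?_ ?_ a b
  · have h2 : ∀ k, E (a * cent P i k) * F (b * (ContinuousMap.const Z
        ((if k = j then 1 else 0 : ℝ) : ℂ) - cent Q k j)) =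
        (if k = j then E (a * cent P i k) * F b else 0) -
          E (a * cent P i k) * F (cent Q k j * b) := by
      intro k
      have h3 : b * (ContinuousMap.const Z ((if k = j then 1 else 0 : ℝ) : ℂ) - cent Q k j) =
          (if k = j then b else 0) - cent Q k j * b := by
        split_ifs with hk
        · ext z
          simp
          ring
        · ext z
          simp
          ring
      rw [h3, map_sub, mul_sub]
      split_ifs with hk
      · rfl
      · rw [map_zero, mul_zero]
    rw [Finset.sum_congr rfl (fun k _ => h2 k), Finset.sum_sub_distrib, sub_eq_zero] at h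
    rw [← h]
    simp
  · intro k x x' e he0 he
    rw [cent_apply, cent_apply, ← Complex.ofReal_sub, Complex.norm_real, Real.norm_eq_abs]
    refine (he (i, k)).trans ?_
    change e ≤ (3 * n * n * n + 2 * (n + n * n + 2) + 8) * e
    have h4 : (0:ℝ) ≤ 3 * n * n * n + 2 * (n + n * n + 2) := by positivity
    nlinarith
  · intro x z
    have h5 : ∑ k, cent P i k x * (ContinuousMap.const Z ((if k = j then 1 else 0 : ℝ) : ℂ) -
        cent Q k j) z = ((((1 - Q z) * P x) j i : ℝ) : ℂ) := by
      rw [Matrix.mul_apply, Complex.ofReal_sum]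
      apply Finset.sum_congr rfl
      intro k _
      rw [ContinuousMap.sub_apply, ContinuousMap.const_apply, cent_apply, cent_apply,
        ← Complex.ofReal_sub, ← Complex.ofReal_mul, Matrix.sub_apply, Matrix.one_apply,
        Pt.symm' (hP x) i k, Ln.symm' (hQ z) k j]
      congr 1
      rw [mul_comm]
      congr 2
      by_cases hkj : k = j
      · simp [hkj]
      · simp [hkj, Ne.symm hkj]
    rw [h5, Complex.norm_real, Real.norm_eq_abs]
    refine (entry_le_dfc P Q x z j i).trans ?_
    change dfc P Q x z ≤ (3 * n * n * n + 2 * (n + n * n + 2) + 8) * dfc P Q x z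
    have h4 : (0:ℝ) ≤ 3 * n * n * n + 2 * (n + n * n + 2) := by positivity
    have h6 := dfc_nonneg P Q x z
    nlinarith

lemma star_cent {Y : Type*} [TopologicalSpace Y] [CompactSpace Y]
    (P : C(Y, Matrix (Fin n) (Fin n) ℝ))
    (i j : Fin n) : star (cent P i j) = cent P i j := by
  ext y
  rw [ContinuousMap.star_apply, cent_apply]
  exact Complex.conj_ofReal _

/-- `Q P = P` between the letters of incident real points and lines -/
theorem rel_r (hP : ∀ x, Pt (P x)) (hQ : ∀ z, Ln (Q z)) (hp : 0 ≤ p) (hq : 0 ≤ q)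
    (hE : UL E p) (hF : UL F q)
    (hI : ∀ (f : C(X, ℂ)) (g : C(Z, ℂ)),
      (∀ x ∈ tsupport f, ∀ z ∈ tsupport g, Q z * P x ≠ P x) → E f * F g = 0)
    (a : C(X, ℂ)) (b : C(Z, ℂ)) (i j : Fin n) :
    ∑ k, F (b * cent Q i k) * E (cent P k j * a) = F b * E (cent P i j * a) := by
  have h := congrArg star (rel_l hP hQ hp hq hE hF hI (star a) (star b) j i)
  rw [star_sum, star_mul, ← hE.star, ← hF.star] at h
  simp only [star_mul, star_star, star_cent, ← hE.star, ← hF.star] at h
  have hPs : ∀ i j, cent P i j = cent P j i := by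
    intro i j; ext x; rw [cent_apply, cent_apply, Pt.symm' (hP x)]
  have hQs : ∀ i j, cent Q i j = cent Q j i := by
    intro i j; ext x; rw [cent_apply, cent_apply, Ln.symm' (hQ x)]
  rw [hPs i j, ← h]
  apply Finset.sum_congr rfl
  intro k _
  rw [hPs k j, hQs i k]

end Vale.Agent.P092.H283.Syn
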