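import Vale.Agent.P092.H283.LocSP
import Vale.Agent.P092.H631.P0Leg
import Vale.Agent.P092.SP.Blocks

/-!
# P092, Team P: [P-0] for `k = ℝ`, straight and flipped types
-/

set_option linter.unusedSectionVars false

open scoped InnerProductSpace
open ContinuousLinearMap Set MeasureTheory Filter Topology

namespace Vale.Agent.P092.H283.ZeroR

open Vale.Agent.P092.SP
open Vale.Agent.P092.SP4
open Vale.Agent.P092.RC (YY PG)
open Vale.Agent.P092.H631.P0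

/-- **[P-0]** over `ℝ`, straight types -/
theorem zeroStmt_R [MeasurableSpace ℝ] (μ : Measure ℝ) : ZeroStmt ℝ μ := by
  intro E Γ K _ _ _ _ _ _ w 𝒰 ι a π lam W Ω m q U11 p11 U12 p12 U21 p21 U22 p22 h h1 h2
  subst h1; subst h2
  obtain ⟨Ec, F, h3, h4, h5⟩ := legC_of_loc (IT := on) h.base h.u11 h.u22 h.i11
    (fun c l l' hl hl' => LocSP.loc (h.u11.ul c) (h.u11.ul c) (h.u22.ul l) (h.u22.ul l')
      (h.i11 c l hl) (h.i11 c l' hl') (h.i11 c l hl) (h.i11 c l' hl'))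
    (fun c c' l hc hc' => LocSP.locD (h.u22.ul l) (h.u22.ul l) (h.u11.ul c) (h.u11.ul c')
      (h.i11 c l hc) (h.i11 c' l hc') (h.i11 c l hc) (h.i11 c' l hc'))
    (fun c l hl hd => LocSP.loc0 (h.u11.ul c) (h.u11.ul c) (h.u22.ul l)
      (h.i11 c l hl) (h.i11 c l hl) hd)
  exact ⟨Ec, F, h4, h5, h3⟩

/-- **[P-0]** over `ℝ`, flipped types -/
theorem zeroStmt_R' [MeasurableSpace ℝ] (μ : Measure ℝ) : ZeroStmt' ℝ μ := by
  intro E Γ K _ _ _ _ _ _ w 𝒰 ι a π lam W Ω m q U11 p11 U12 p12 U21 p21 U22 p22 h h1 h2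
  subst h1; subst h2
  obtain ⟨Ec, F, h3, h4, h5⟩ := legC_of_loc (IT := flip on) h.base h.u12 h.u21
    (fun c l hcl g f hn => i1_symm (ul_of_sp (h.u21.ul l)) (ul_of_sp (h.u12.ul c))
      (h.i12 c l hcl) f g (fun x hx z hz => hn z hz x hx))
    (fun c l l' hl hl' => LocSP.locD (h.u12.ul c) (h.u12.ul c) (h.u21.ul l) (h.u21.ul l')
      (h.i12 c l hl) (h.i12 c l' hl') (h.i12 c l hl) (h.i12 c l' hl'))
    (fun c c' l hc hc' => LocSP.loc (h.u21.ul l) (h.u21.ul l) (h.u12.ul c) (h.u12.ul c')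
      (h.i12 c l hc) (h.i12 c' l hc') (h.i12 c l hc) (h.i12 c' l hc'))
    (fun c l hl hd => LocSP.loc0D (h.u12.ul c) (h.u12.ul c) (h.u21.ul l)
      (h.i12 c l hl) (h.i12 c l hl) hd)
  exact ⟨Ec, F, h4, h5, h3⟩

end Vale.Agent.P092.H283.ZeroR
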